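import Vale.Agent.P218N.GB.Area
import Vale.Agent.P218N.H.TwoSided
import Vale.Agent.P218N.H.Div

/-!
# P218N, block GB: the local bound for the total curvature
-/

open MeasureTheory Filter Topology Set Metric
open scoped ENNReal NNReal RealInnerProductSpace ContDiff

noncomputable section

namespace Vale.Agent.P218N.GB

open Vale.Agent.P218.H313 Vale.Agent.P218N.H

variable {M U : Set E3} {w : E3 → ℝ} {c : E3}

theorem CS.locallyConnected (H : CS M w) : LocallyConnectedSpace M := by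
  refine locallyConnectedSpace_iff_connected_subsets.2 fun x V hV => ?_
  obtain ⟨a, b, k⟩ := exists_ab (H.reg x x.2)
  obtain ⟨O, ψ, r, C⟩ := H.exists_chart x.2 k
  obtain ⟨V', h1, h2⟩ := (mem_nhds_subtype M x V).1 hV
  obtain ⟨s, s0, hs⟩ := Metric.eventually_nhds_iff_ball.1
    ((C.diff (mem_ball_self C.pos)).continuousAt.eventually (p := fun y => y ∈ V') (C.zero ▸ h1))
  have C' := C.mono (lt_min s0 C.pos) (min_le_right s r)
  refine ⟨_, (C'.opn.preimage continuous_subtype_val).mem_nhds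
    (C.zero ▸ (C'.mem 0 (mem_ball_self C'.pos)).2 : (x : E3) ∈ _), ?_, fun y hy => h2 ?_⟩
  · rw [← IsInducing.subtypeVal.isPreconnected_image, Subtype.image_preimage_coe, ← C'.image]
    exact (convex_ball _ _).isPreconnected.image _ C'.sm.continuousOn
  · obtain ⟨u, hu, e⟩ := C'.image.ge ⟨y.2, hy⟩
    exact mem_preimage.2 (e ▸ hs u (ball_subset_ball (min_le_left _ _) hu))

theorem cpt_pre {R : ℝ} (hK : IsCompact (M ∩ closedBall c R)) {T : Set M} (hT : IsClosed T)
    (h : ∀ x ∈ T, ‖(x : E3) - c‖ ≤ R) : IsCompact T :=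
  (IsInducing.subtypeVal.isCompact_preimage' hK (by simp)).of_isClosed_subset hT
    fun x hx => ⟨x.2, mem_closedBall_iff_norm.2 (h x hx)⟩

theorem cpt_sep {R : ℝ} (hK : IsCompact (M ∩ closedBall c R)) {P : E3 → Prop}
    (hT : IsClosed {x | P x}) (h : ∀ x, P x → ‖x - c‖ ≤ R) : IsCompact {x ∈ M | P x} := by
  convert hK.inter_right hT using 1
  exact Set.ext fun x => ⟨fun k => ⟨⟨k.1, mem_closedBall_iff_norm.2 (h x k.2)⟩, k.2⟩,
    fun k => ⟨k.1.1, k.2⟩⟩

/-- local extrema are focal pairs with positive Jacobian -/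
theorem Gen.extr (G : Gen M w c) (h : LocDef M U w) (hM : M ⊆ U) {p : M}
    (hp : IsLocalExtr (fun q : M => ‖(q : E3) - c‖ ^ 2) p)
    (hK : IsCompact {x ∈ M | ‖x - c‖ ^ 2 = ‖(p : E3) - c‖ ^ 2}) :
    ∃ t, foc w (p, t) = c ∧ 0 < Jf w (p, t) ∧ ‖(p : E3) - c‖ = |t| := by
  obtain ⟨t, ht⟩ := foc_of_extr h hM hp
  refine ⟨t, ht, (G.nd (p, t) p.2 ht).lt_or_gt.resolve_left fun k => ?_,
    norm_foc (h.ne _ (hM p.2)) ht⟩
  exact not_or.2 ((toCS h hM).saddle_not_extr (contDiff_sq c)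
    (isSaddle_of_neg h.smooth (h.ne _ (hM p.2)) ht k) hK) hp

theorem card_le_cnt {B : Set (E3 × ℝ)} {T : Finset M}
    (hT : ∀ x ∈ T, ∃ t, ((x : E3), t) ∈ B ∧ foc w (x, t) = c) : (T.card : ℝ≥0∞) ≤ cnt M w B c := by
  choose! t t1 t2 using hT
  have := encard_le_encard_of_injOn (s := (T : Set M)) (t := {q ∈ B | q.1 ∈ M ∧ foc w q = c})
    (f := fun x => (x, t x)) (fun x hx => ⟨t1 x hx, x.2, t2 x hx⟩)
    fun x _ y _ e => Subtype.ext (congrArg Prod.fst e)
  rw [encard_coe_eq_coe_finsetCard] at this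
  exact (ENat.toENNReal_coe _).ge.trans (ENat.toENNReal_le.2 this)

theorem cnt_mono {B B' : Set (E3 × ℝ)} (h : ∀ q ∈ B, q.1 ∈ M → foc w q = c → q ∈ B') :
    cnt M w B c ≤ cnt M w B' c :=
  ENat.toENNReal_le.2 (encard_le_encard fun q hq => ⟨h q hq.1 hq.2.1 hq.2.2, hq.2⟩)

theorem encard_add_le {α : Type*} {s : Set α} {a k : ℝ≥0∞}
    (h : ∀ F : Finset α, (F : Set α) ⊆ s → F.card + a ≤ k) : (s.encard : ℝ≥0∞) + a ≤ k := by
  rcases s.finite_or_infinite with hs | hs
  · simpa [hs.encard_eq_coe_toFinset_card] using h hs.toFinset (by simp)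
  · rcases eq_or_ne k ⊤ with rfl | hk
    · exact le_top
    obtain ⟨n, hn⟩ := ENNReal.exists_nat_gt hk
    obtain ⟨F, h1, h2⟩ := hs.exists_subset_card_eq n
    exact (hn.not_ge (h2 ▸ le_self_add.trans (h F h1))).elim

/-- the saddles are counted by the cut levels of the distance function and of its negative -/
theorem Gen.cnt_neg (G : Gen M w c) (h : LocDef M U w) (hM : M ⊆ U) {τ ρ : ℝ} (hτ : 0 < τ)
    (hρ : τ < ρ) (hK : IsCompact (M ∩ closedBall c ρ)) {a k : ℝ≥0∞}
    (hk : ∀ S₁ S₂ : Finset ℝ,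
      (∀ s ∈ S₁, 0 ≤ s ∧ s < τ ^ 2 ∧ Cut (fun q : M => ‖(q : E3) - c‖ ^ 2) s) →
      (∀ s ∈ S₂, -τ ^ 2 < s ∧ s ≤ 0 ∧ Cut (fun q : M => -‖(q : E3) - c‖ ^ 2) s) →
      S₁.card + S₂.card + a ≤ k) : cnt M w {q | Jf w q < 0 ∧ |q.2| < τ} c + a ≤ k := by
  classical
  refine encard_add_le fun F hF => ?_
  have lt : ∀ q ∈ F, ‖q.1 - c‖ ^ 2 < τ ^ 2 := fun q hq => by
    rw [norm_foc (t := q.2) (h.ne _ (hM (hF hq).2.1)) (hF hq).2.2]
    exact pow_lt_pow_left₀ (hF hq).1.2 (abs_nonneg _) two_ne_zero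
  have inj : InjOn (fun q : E3 × ℝ => ‖q.1 - c‖ ^ 2) F := fun q hq q' hq' e => by
    have e1 := G.inj q q' (hF hq).2.1 (hF hq').2.1 (hF hq).2.2 (hF hq').2.2 e
    exact Prod.ext e1 (foc_inj (x := q.1) (h.ne _ (hM (hF hq).2.1))
      ((hF hq).2.2.trans (e1 ▸ (hF hq').2.2.symm)))
  have cut : ∀ q ∈ F, Cut (fun q : M => ‖(q : E3) - c‖ ^ 2) (‖q.1 - c‖ ^ 2) ∨
      Cut (fun q : M => -‖(q : E3) - c‖ ^ 2) (-‖q.1 - c‖ ^ 2) := fun q hq => by
    obtain ⟨⟨q1, -⟩, q2, q3⟩ := hF hq
    refine (toCS h hM).saddle_cut (contDiff_sq c) (p := ⟨q.1, q2⟩)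
      (isSaddle_of_neg h.smooth (h.ne _ (hM q2)) q3 q1) (a := ρ ^ 2 - τ ^ 2) (by nlinarith)
      (cpt_sep hK (isClosed_le (by fun_prop) continuous_const) fun x hx => ?_)
      fun x hx e ne k => ?_
    · exact le_of_sq_le_sq (by linarith [lt q hq, (abs_le.1 hx).2]) (by linarith)
    · obtain ⟨t, ht⟩ := foc_of_fld (h.ne _ (hM hx)) k
      exact ne (G.inj (x, t) q hx q2 ht q3 e)
  let P : E3 × ℝ → Prop := fun q => Cut (fun q : M => ‖(q : E3) - c‖ ^ 2) (‖q.1 - c‖ ^ 2)
  refine le_trans (le_of_eq ?_) (hk ((F.filter P).image fun q => ‖q.1 - c‖ ^ 2)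
    ((F.filter fun q => ¬ P q).image fun q => -‖q.1 - c‖ ^ 2) (fun s hs => ?_) fun s hs => ?_)
  · rw [Finset.card_image_of_injOn (inj.mono (Finset.coe_subset.2 (Finset.filter_subset _ _))),
      Finset.card_image_of_injOn fun q hq q' hq' e => inj (Finset.mem_filter.1 hq).1
        (Finset.mem_filter.1 hq').1 (neg_injective e), ← Nat.cast_add,
      F.card_filter_add_card_filter_not P]
  · obtain ⟨q, hq, rfl⟩ := Finset.mem_image.1 hs
    exact ⟨sq_nonneg _, lt q (Finset.mem_filter.1 hq).1, (Finset.mem_filter.1 hq).2⟩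
  · obtain ⟨q, hq, rfl⟩ := Finset.mem_image.1 hs
    exact ⟨neg_lt_neg (lt q (Finset.mem_filter.1 hq).1), neg_nonpos.2 (sq_nonneg _),
      (cut q (Finset.mem_filter.1 hq).1).resolve_left (Finset.mem_filter.1 hq).2⟩

/-- the crude Morse inequality in a ball -/
theorem Gen.morse (G : Gen M w c) (h : LocDef M U w) (hM : M ⊆ U) {b : ℕ} (hb : RankC M b)
    {τ ρ : ℝ} (hτ : 0 < τ) (hρ : τ < ρ) (hK : IsCompact (M ∩ closedBall c ρ)) {k : ℝ≥0∞}
    (hk : ∀ Y : Finset M, (∀ y ∈ Y, ‖(y : E3) - c‖ = ρ) → (∀ y ∈ Y, ∀ y' ∈ Y,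
      y' ∈ connectedComponentIn {x : M | -‖(x : E3) - c‖ ^ 2 < -τ ^ 2} y → y' = y) → Y.card ≤ k) :
    cnt M w {q | Jf w q < 0 ∧ |q.2| < τ} c ≤
      2 * cnt M w {q | 0 < Jf w q ∧ |q.2| < ρ} c + k + 2 * b := by
  rcases M.eq_empty_or_nonempty with rfl | ne
  · simp [cnt]
  have := ne.to_subtype
  have := (toCS h hM).locallyConnected
  have c1 : Continuous fun q : M => ‖(q : E3) - c‖ ^ 2 := by fun_prop
  have sq : τ ^ 2 < ρ ^ 2 := by nlinarith
  have key : ∀ T : Finset M, (∀ x ∈ T, IsLocalExtr (fun q : M => ‖(q : E3) - c‖ ^ 2) x ∧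
      ‖(x : E3) - c‖ ^ 2 < ρ ^ 2) → T.card ≤ cnt M w {q | 0 < Jf w q ∧ |q.2| < ρ} c :=
    fun T hT => card_le_cnt fun x hx => by
      obtain ⟨t, t1, t2, t3⟩ := G.extr h hM (hT x hx).1 (cpt_sep hK
        (isClosed_eq (by fun_prop) continuous_const) fun y hy =>
          le_of_sq_le_sq (hy ▸ (hT x hx).2.le) (by linarith))
      exact ⟨t, ⟨t2, t3 ▸ lt_of_pow_lt_pow_left₀ 2 (by linarith) (hT x hx).2⟩, t1⟩
  refine (add_zero _).ge.trans (G.cnt_neg h hM hτ hρ hK fun S₁ S₂ h1 h2 => ?_)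
  obtain ⟨T₁, a1, a2⟩ := count_min hb c1 (τ := -1) (fun x => by linarith [sq_nonneg ‖(x : E3) - c‖])
    (cpt_pre hK (isClosed_Icc.preimage c1) fun x hx => le_of_sq_le_sq hx.2 (by linarith)) sq S₁
    (fun s hs => ⟨by linarith [(h1 s hs).1], (h1 s hs).2.1.le, (h1 s hs).2.2⟩) ∅ (by simp) (by simp)
  obtain ⟨T₂, Y, b1, b2, b3, b4⟩ := count_out hb c1.neg (σ := 1)
    (cpt_pre hK (isClosed_Icc.preimage c1.neg) fun x hx =>
      le_of_sq_le_sq (neg_le_neg_iff.1 hx.1) (by linarith)) S₂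
    (fun s hs => ⟨by linarith [(h2 s hs).2.1], (h2 s hs).2.2⟩) (neg_lt_neg sq)
    fun s hs => (h2 s hs).1.le
  have k1 := key T₁ fun x hx => ⟨.inl (a2 x hx).1, (a2 x hx).2.trans sq⟩
  have k2 := key T₂ fun x hx => ⟨.inr ((b2 x hx).1.mono fun y hy => neg_le_neg_iff.1 hy),
    neg_lt_neg_iff.1 (b2 x hx).2⟩
  have k3 := hk Y (fun y hy => (pow_left_inj₀ (norm_nonneg _) (by linarith) two_ne_zero).1
    (neg_injective (b3 y hy))) b4
  have a3 : (S₁.card : ℝ≥0∞) ≤ T₁.card + b := by exact_mod_cast (by simpa using a1)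
  have b5 : (S₂.card : ℝ≥0∞) ≤ T₂.card + Y.card + b := by exact_mod_cast b1
  calc (S₁.card : ℝ≥0∞) + S₂.card + 0 ≤ (cnt M w {q | 0 < Jf w q ∧ |q.2| < ρ} c + b) +
        (cnt M w {q | 0 < Jf w q ∧ |q.2| < ρ} c + k + b) + 0 := by
        gcongr
        · exact a3.trans (by gcongr)
        · exact b5.trans (by gcongr)
    _ = _ := by ring

/-- every outer component contributes a minimum for all centres near its middle point -/
theorem Gen.outer {c' : E3} (G : Gen M w c') (h : LocDef M U w) (hM : M ⊆ U) {τ ρ η : ℝ}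
    (hτ : 0 < τ) (hη : 0 < η) (hρ : τ + 2 * η < ρ) (hK : IsCompact (M ∩ closedBall c (ρ + 2 * η)))
    {Y : Finset M} (h1 : ∀ y ∈ Y, ‖(y : E3) - c‖ = ρ) (h2 : ∀ y ∈ Y, ∀ y' ∈ Y,
      y' ∈ connectedComponentIn {x : M | -‖(x : E3) - c‖ ^ 2 < -τ ^ 2} y → y' = y) :
    ∑ y ∈ Y, (ball (y : E3) η).indicator 1 c' ≤
      cnt M w {q | (0 < Jf w q ∧ |q.2| < η) ∧ q.1 ∈ ball c (ρ + 2 * η)} c' := by
  classical
  have := (toCS h hM).locallyConnected
  have c1 : Continuous fun q : M => -‖(q : E3) - c‖ ^ 2 := by fun_prop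
  have tri : ∀ x y z : E3, ‖x - z‖ ≤ ‖x - y‖ + ‖y - z‖ := norm_sub_le_norm_sub_add_norm_sub
  have ex : ∀ y ∈ Y.filter fun y : M => c' ∈ ball (y : E3) η,
      ∃ m ∈ connectedComponentIn {x : M | -‖(x : E3) - c‖ ^ 2 < -τ ^ 2} y,
        IsLocalMin (fun q : M => ‖(q : E3) - c'‖ ^ 2) m ∧ ‖(m : E3) - c'‖ < η := by
    intro y hy
    obtain ⟨hy, k⟩ := Finset.mem_filter.1 hy
    rw [mem_ball_iff_norm] at k
    have y1 := h1 y hy
    have far : ∀ x : M, ‖(x : E3) - y‖ ≤ 2 * η → -‖(x : E3) - c‖ ^ 2 < -τ ^ 2 := fun x hx =>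
      neg_lt_neg (pow_lt_pow_left₀ (by linarith [tri y x c, norm_sub_rev (y : E3) x]) hτ.le
        two_ne_zero)
    have y0 := mem_connectedComponentIn (F := {x : M | -‖(x : E3) - c‖ ^ 2 < -τ ^ 2})
      (far y (by simpa using hη.le))
    obtain ⟨m, m1, m2⟩ := (cpt_pre hK (T := closure (connectedComponentIn
      {x : M | -‖(x : E3) - c‖ ^ 2 < -τ ^ 2} y) ∩ {x | ‖(x : E3) - y‖ ≤ 2 * η})
      (isClosed_closure.inter (isClosed_le (by fun_prop) continuous_const)) fun x hx => by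
        linarith [tri x y c, show ‖(x : E3) - y‖ ≤ _ from hx.2]).exists_isMinOn
      ⟨y, subset_closure y0, by simpa using hη.le⟩
      (f := fun q : M => ‖(q : E3) - c'‖ ^ 2) (by fun_prop)
    have m3 : ‖(m : E3) - c'‖ < η := (le_of_sq_le_sq (m2 (a := y)
      ⟨subset_closure y0, by simpa using hη.le⟩) (norm_nonneg _)).trans_lt (norm_sub_rev c' y ▸ k)
    have m4 := closure_comp c1 m1.1 (far m m1.2)
    refine ⟨m, m4, m2.isLocalMin (inter_mem (mem_of_superset ((isOpen_lt c1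
      continuous_const).connectedComponentIn.mem_nhds m4) subset_closure) ?_), m3⟩
    exact (ContinuousAt.eventually_lt (f := fun x : M => ‖(x : E3) - y‖) (by fun_prop)
      continuousAt_const (by linarith [tri m c' y])).mono fun x hx => hx.le
  choose! m m1 m2 m3 using ex
  have e : ∑ y ∈ Y, (ball (y : E3) η).indicator (1 : E3 → ℝ≥0∞) c' =
      ((Y.filter fun y : M => c' ∈ ball (y : E3) η).image m).card := by
    rw [Finset.card_image_of_injOn fun y hy y' hy' e => ?_, Finset.card_filter]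
    · simp [indicator]
    · refine h2 y' (Finset.mem_filter.1 hy').1 y (Finset.mem_filter.1 hy).1 ?_
      rw [connectedComponentIn_eq (m1 y' hy'), ← e, ← connectedComponentIn_eq (m1 y hy)]
      exact mem_connectedComponentIn (connectedComponentIn_nonempty_iff.1 ⟨_, m1 y hy⟩)
  rw [e]
  refine card_le_cnt fun x hx => ?_
  obtain ⟨y, hy, rfl⟩ := Finset.mem_image.1 hx
  have k := mem_ball_iff_norm.1 (Finset.mem_filter.1 hy).2
  have y1 := h1 y (Finset.mem_filter.1 hy).1
  have m4 := m3 y hy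
  obtain ⟨t, t1, t2, t3⟩ := G.extr h hM (.inl (m2 y hy)) (cpt_sep hK
    (isClosed_eq (by fun_prop) continuous_const) fun z hz => by
      linarith [tri z c' c, tri c' y c, le_of_sq_le_sq hz.le (norm_nonneg _)])
  exact ⟨t, ⟨⟨t2, t3 ▸ m4⟩, mem_ball_iff_norm.2 (by linarith [tri (m y) c' c, tri c' y c])⟩, t1⟩

theorem meas_sgn (h : LocDef M U w) {T : Set ℝ} (hT : MeasurableSet T) (ρ : ℝ) {V : Set E3}
    (hV : MeasurableSet V) :
    MeasurableSet (U ×ˢ univ ∩ Jf w ⁻¹' T ∩ V ×ˢ Ioo (-ρ) ρ) :=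
  (meas_Jf h hT).inter (hV.prod measurableSet_Ioo)

/-- **Local bound for the total curvature**, with a global defining function. -/
theorem local_gb' (h : LocDef M U w) (hM : M ⊆ U) {b : ℕ} (hb : RankC M b) (x : E3) {r : ℝ}
    (hr : 0 < r) (hK : IsCompact (M ∩ closedBall x (2 * r))) :
    ∫⁻ y in M ∩ ball x r, ENNReal.ofReal (Asq M y) ∂μHE[2] ≤
      10 ^ 8 * (∫⁻ y in M ∩ ball x (2 * r), ENNReal.ofReal (‖Hv M y‖ ^ 2) ∂μHE[2] +
        μHE[2] (M ∩ ball x (2 * r)) / ENNReal.ofReal (r ^ 2) + b) := by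
  obtain ⟨τ, rfl⟩ : ∃ τ, r = 20 * τ := ⟨r / 20, by ring⟩
  have τ0 : 0 < τ := by linarith
  have S : Surf M := fun x hx => ⟨w, U, hM hx, h⟩
  have mM := S.measurableSet
  have hH : ∀ y ∈ M, ‖Hv M y‖ ^ 2 = tr (AW w y) ^ 2 := fun y hy => by
    rw [h.Hv_eq (hM hy) hy, norm_smul, h.norm_nuW (hM hy), mul_one, Real.norm_eq_abs, sq_abs, neg_sq]
  set s := ENNReal.ofReal τ with hs
  have s0 : s ≠ 0 := (ENNReal.ofReal_pos.2 τ0).ne'
  have s1 : s ≠ ⊤ := ENNReal.ofReal_ne_top
  have sm : ∀ n : ℕ, ENNReal.ofReal (n * τ) = n * s := fun n => by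
    rw [ENNReal.ofReal_mul n.cast_nonneg, ENNReal.ofReal_natCast]
  set IH := ∫⁻ y in M ∩ ball x (2 * (20 * τ)), ENNReal.ofReal (‖Hv M y‖ ^ 2) ∂μHE[2] with hIH
  set a := μHE[2] (M ∩ ball x (2 * (20 * τ))) with ha
  let Bn := U ×ˢ univ ∩ Jf w ⁻¹' Iio 0 ∩ ball x (20 * τ) ×ˢ Ioo (-(2 * τ)) (2 * τ)
  let Bp := U ×ˢ univ ∩ Jf w ⁻¹' Ioi 0 ∩ ball x (2 * (20 * τ)) ×ˢ Ioo (-(8 * τ)) (8 * τ)
  obtain ⟨n1, n2⟩ := focal_area h hM (B := Bn) (meas_sgn h measurableSet_Iio _ measurableSet_ball)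
  obtain ⟨p1, p2⟩ := focal_area h hM (B := Bp) (meas_sgn h measurableSet_Ioi _ measurableSet_ball)
  set P := ∫⁻ c, cnt M w Bp c with hP
  have aff : ∀ (α β : ℝ≥0∞) (T : Set E3), β ≠ ⊤ → T ⊆ M ∩ ball x (2 * (20 * τ)) →
      ∫⁻ y in T, (α + β * ENNReal.ofReal (‖Hv M y‖ ^ 2)) ∂μHE[2] ≤ α * a + β * IH :=
    fun α β T hβ hT => (lintegral_mono_set hT).trans_eq (by
      rw [lintegral_add_left measurable_const, lintegral_const_mul' _ _ hβ, setLIntegral_const])
  have hPle : P ≤ 32 * s * a + 512 * s ^ 3 * IH := by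
    rw [p2, ← lintegral_inter_add_sdiff _ M (measurableSet_ball (x := x) (ε := 2 * (20 * τ))),
      setLIntegral_congr_fun (mM.diff measurableSet_ball) (g := fun _ => 0) fun y hy => by
        simp only [indicator_of_notMem fun l : (y, _) ∈ Bp => hy.2 l.2.1, lintegral_zero],
      lintegral_zero, add_zero]
    refine le_trans (setLIntegral_mono' (mM.inter measurableSet_ball) fun y hy => ?_)
      (aff _ _ _ (by finiteness) subset_rfl)
    calc _ ≤ ∫⁻ t, (Ioo (-(8 * τ)) (8 * τ)).indicator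
          (fun _ => 2 + 32 * s ^ 2 * ENNReal.ofReal (‖Hv M y‖ ^ 2)) t := by
          refine lintegral_mono fun t => ?_
          by_cases k : (y, t) ∈ Bp
          · rw [indicator_of_mem k, indicator_of_mem k.2.2, abs_of_pos k.1.2, hH y hy.1]
            have k1 := Jf_le h.smooth (h.ne y (hM hy.1)) t
            have k2 : t ^ 2 ≤ (8 * τ) ^ 2 := sq_le_sq' k.2.2.1.le k.2.2.2.le
            refine (ENNReal.ofReal_le_ofReal (q := 2 + 32 * τ ^ 2 * tr (AW w y) ^ 2) ?_).trans_eq ?_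
            · nlinarith [sq_nonneg (1 - t * tr (AW w y) / 2),
                mul_le_mul_of_nonneg_right k2 (sq_nonneg (tr (AW w y)))]
            · rw [ENNReal.ofReal_add (by positivity) (by positivity),
                ENNReal.ofReal_mul (by positivity), ENNReal.ofReal_mul (by positivity),
                ENNReal.ofReal_pow τ0.le]
              simp [hs]
          · rw [indicator_of_notMem k]
            exact zero_le
      _ = _ := by
          rw [lintegral_indicator_const measurableSet_Ioo, Real.volume_Ioo,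
            show 8 * τ - -(8 * τ) = (16 : ℕ) * τ by push_cast; ring, sm]
          push_cast
          ring
  obtain ⟨V, V0, V1, hV⟩ : ∃ V : ℝ≥0∞, V ≠ 0 ∧ V ≤ 5 ∧ ∀ (y : E3) (n : ℕ),
      volume (ball y (n * τ)) = n ^ 3 * s ^ 3 * V :=
    ⟨ENNReal.ofReal (Real.pi * 4 / 3), (ENNReal.ofReal_pos.2 (by positivity)).ne',
      ENNReal.ofReal_le_ofNat.2 (by linarith [Real.pi_lt_d2]), fun y n => by
        rw [EuclideanSpace.volume_ball_fin_three, sm, mul_pow]⟩
  have Vt : V ≠ ⊤ := ne_top_of_le_ne_top (by simp) V1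
  have sub : ∀ c ∈ ball x ((22 : ℕ) * τ), ∀ ρ ≤ 18 * τ, IsCompact (M ∩ closedBall c ρ) :=
    fun c hc ρ hρ => by
      convert hK.inter_right (isClosed_closedBall (x := c) (ε := ρ)) using 1
      rw [inter_assoc, inter_eq_right.2 (closedBall_subset_closedBall' ?_)]
      have := mem_ball.1 hc
      push_cast at this
      linarith
  have hk : ∀ c ∈ ball x ((22 : ℕ) * τ), ∀ Y : Finset M, (∀ y ∈ Y, ‖(y : E3) - c‖ = 8 * τ) →
      (∀ y ∈ Y, ∀ y' ∈ Y, y' ∈ connectedComponentIn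
        {x : M | -‖(x : E3) - c‖ ^ 2 < -(2 * τ) ^ 2} y → y' = y) →
      Y.card ≤ P / (8 * s ^ 3 * V) := fun c hc Y h1 h2 => by
    refine (ENNReal.le_div_iff_mul_le (.inl (by simp [s0, V0])) (.inl (by finiteness))).2 ?_
    calc _ = ∫⁻ c', ∑ y ∈ Y, (ball (y : E3) ((2 : ℕ) * τ)).indicator 1 c' := by
          rw [lintegral_finsetSum _ fun y _ => measurable_one.indicator measurableSet_ball]
          simp only [lintegral_indicator_one measurableSet_ball, hV, Finset.sum_const, nsmul_eq_mul]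
          norm_num
      _ ≤ _ := by
          refine lintegral_mono_ae ((ae_gen h hM).mono fun c' G => ?_)
          push_cast
          refine (G.outer h hM (by positivity) (by positivity) (by linarith)
            (sub c hc _ (by linarith)) h1 h2).trans (cnt_mono fun q hq q1 _ =>
              ⟨⟨⟨hM q1, trivial⟩, hq.1.1⟩, ball_subset_ball' ?_ hq.2,
                abs_lt.1 (hq.1.2.trans (by linarith))⟩)
          have := mem_ball.1 hc
          push_cast at this
          linarith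
  have hN : ∫⁻ c, cnt M w Bn c ≤ 1333 * P + 106480 * s ^ 3 * b := by
    calc _ ≤ ∫⁻ c, (2 * cnt M w Bp c + (ball x ((22 : ℕ) * τ)).indicator
          (fun _ => P / (8 * s ^ 3 * V) + 2 * b) c) := by
          refine lintegral_mono_ae ((ae_gen h hM).mono fun c G => ?_)
          by_cases hc : c ∈ ball x ((22 : ℕ) * τ)
          · rw [indicator_of_mem hc, ← add_assoc]
            refine le_trans (cnt_mono fun q hq _ _ => by exact ⟨hq.1.2, abs_lt.2 hq.2.2⟩)
              ((G.morse h hM hb (τ := 2 * τ) (ρ := 8 * τ) (by positivity) (by linarith)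
                (sub c hc _ (by linarith)) (hk c hc)).trans ?_)
            gcongr
            refine cnt_mono fun q hq q1 q2 => ⟨⟨⟨hM q1, trivial⟩, hq.1⟩, ?_, abs_lt.1 hq.2⟩
            have k1 := norm_foc (t := q.2) (h.ne _ (hM q1)) q2
            have k2 := mem_ball_iff_norm.1 hc
            push_cast at k2
            exact mem_ball_iff_norm.2 (by
              linarith [norm_sub_le_norm_sub_add_norm_sub q.1 c x, hq.2])
          · refine le_trans (cnt_mono (B' := ∅) fun q hq q1 q2 => hc ?_) (by simp [cnt])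
            have k1 := norm_foc (t := q.2) (h.ne _ (hM q1)) q2
            have k2 := mem_ball_iff_norm.1 hq.2.1
            push_cast
            exact mem_ball_iff_norm.2 (by
              linarith [norm_sub_le_norm_sub_add_norm_sub c q.1 x, abs_lt.2 hq.2.2,
                norm_sub_rev c q.1])
      _ = 2 * P + 1331 * (P / (8 * s ^ 3 * V) * (8 * s ^ 3 * V)) + 21296 * s ^ 3 * b * V := by
          rw [lintegral_add_right _ (measurable_const.indicator measurableSet_ball),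
            lintegral_const_mul' _ _ (by simp), lintegral_indicator_const measurableSet_ball, hV]
          push_cast
          ring
      _ ≤ 2 * P + 1331 * P + 21296 * s ^ 3 * b * 5 := by
          gcongr
          exact ENNReal.mul_le_of_le_div le_rfl
      _ = _ := by ring
  have main : s ^ 3 * ∫⁻ y in M ∩ ball x (20 * τ), ENNReal.ofReal (Asq M y) ∂μHE[2] ≤
      2 * (∫⁻ c, cnt M w Bn c) + (4 * s * a + 6 * s ^ 3 * IH) := by
    rw [← lintegral_const_mul' _ _ (by finiteness), n2]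
    calc _ ≤ ∫⁻ y in M ∩ ball x (20 * τ), (2 * (∫⁻ t, Bn.indicator
          (fun q => ENNReal.ofReal |Jf w q|) (y, t)) +
          (4 * s + 6 * s ^ 3 * ENNReal.ofReal (‖Hv M y‖ ^ 2))) ∂μHE[2] := by
          refine setLIntegral_mono' (mM.inter measurableSet_ball) fun y hy => ?_
          have vol : volume (Ioo τ (2 * τ)) = s := by
            rw [Real.volume_Ioo, show 2 * τ - τ = τ by ring]
          calc _ = ∫⁻ _ in Ioo τ (2 * τ), s ^ 2 * ENNReal.ofReal (Asq M y) := by
                rw [setLIntegral_const, vol]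
                ring
            _ ≤ ∫⁻ t in Ioo τ (2 * τ), (2 * Bn.indicator (fun q => ENNReal.ofReal |Jf w q|) (y, t) +
                (4 + 6 * s ^ 2 * ENNReal.ofReal (‖Hv M y‖ ^ 2))) := by
                refine setLIntegral_mono' measurableSet_Ioo fun t ht => ?_
                have k1 := Jf_eq h.smooth (h.ne y (hM hy.1)) t
                have k2 := S.Asq_nonneg hy.1
                rw [← h.Asq_eq (hM hy.1) hy.1] at k1
                have k3 : τ ^ 2 ≤ t ^ 2 := pow_le_pow_left₀ τ0.le ht.1.le 2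
                have k4 : t ^ 2 ≤ (2 * τ) ^ 2 := pow_le_pow_left₀ (τ0.trans ht.1).le ht.2.le 2
                have k5 : τ ^ 2 * Asq M y ≤ 2 * -Jf w (y, t) + (4 + 6 * τ ^ 2 * tr (AW w y) ^ 2) := by
                  nlinarith [sq_nonneg (t * tr (AW w y) - 2), mul_le_mul_of_nonneg_right k3 k2,
                    mul_le_mul_of_nonneg_right k4 (sq_nonneg (tr (AW w y)))]
                rw [hH y hy.1, hs, ← ENNReal.ofReal_pow τ0.le, ← ENNReal.ofReal_mul (by positivity)]
                refine (ENNReal.ofReal_le_ofReal k5).trans (ENNReal.ofReal_add_le.trans ?_)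
                gcongr
                · rw [ENNReal.ofReal_mul zero_le_two, ENNReal.ofReal_ofNat]
                  gcongr
                  rcases lt_or_ge (Jf w (y, t)) 0 with k | k
                  · rw [indicator_of_mem (show (y, t) ∈ Bn from ⟨⟨⟨hM hy.1, trivial⟩, k⟩, hy.2,
                      by linarith [ht.1], ht.2⟩), abs_of_neg k]
                  · rw [ENNReal.ofReal_of_nonpos (neg_nonpos.2 k)]
                    exact zero_le
                · rw [ENNReal.ofReal_add (by positivity) (by positivity),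
                    ENNReal.ofReal_mul (p := 6 * τ ^ 2) (by positivity),
                    ENNReal.ofReal_mul (p := 6) (by positivity)]
                  simp
            _ ≤ _ := by
                rw [lintegral_add_right _ measurable_const, lintegral_const_mul' _ _ (by simp),
                  setLIntegral_const, vol]
                refine add_le_add (by gcongr; exact Measure.restrict_le_self) (le_of_eq (by ring))
      _ ≤ _ := by
          rw [lintegral_add_right' _ (g := fun y => 4 * s + 6 * s ^ 3 * ENNReal.ofReal (‖Hv M y‖ ^ 2))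
            (aemeasurable_const.add (AEMeasurable.const_mul
            (ENNReal.measurable_ofReal.comp_aemeasurable (((S.continuousOn_Hv.norm.pow 2).mono
              inter_subset_left).aemeasurable (mM.inter measurableSet_ball))) _)),
            lintegral_const_mul' _ _ (by simp)]
          gcongr
          · exact inter_subset_left
          · exact aff _ _ _ (by finiteness) (inter_subset_inter_right _ (ball_subset_ball (by linarith)))
  have ea : a = 400 * s ^ 2 * (a / ENNReal.ofReal ((20 * τ) ^ 2)) := by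
    rw [ENNReal.ofReal_pow (by positivity), show 20 * τ = (20 : ℕ) * τ by norm_num, sm,
      show 400 * s ^ 2 = (((20 : ℕ) : ℝ≥0∞) * s) ^ 2 by push_cast; ring,
      ENNReal.mul_div_cancel (by simp [s0]) (by finiteness)]
  generalize a / ENNReal.ofReal ((20 * τ) ^ 2) = a' at ea
  refine (ENNReal.mul_le_mul_iff_right (pow_ne_zero 3 s0) (by finiteness)).1 (main.trans ?_)
  calc _ ≤ 2 * (1333 * (32 * s * a + 512 * s ^ 3 * IH) + 106480 * s ^ 3 * b) +
        (4 * s * a + 6 * s ^ 3 * IH) := by gcongr; exact hN.trans (by gcongr)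
    _ = s ^ 3 * (1364998 * IH + 34126400 * a' + 212960 * b) := by rw [ea]; ring
    _ ≤ s ^ 3 * (10 ^ 8 * IH + 10 ^ 8 * a' + 10 ^ 8 * b) := by gcongr <;> norm_num
    _ = _ := by ring

/-- **Local bound for the total curvature** of a closed surface. -/
theorem local_gb (h : Surf M) (hc : IsClosed M) {b : ℕ} (hb : RankC M b) (x : E3) {r : ℝ}
    (hr : 0 < r) :
    ∫⁻ y in M ∩ ball x r, ENNReal.ofReal (Asq M y) ∂μHE[2] ≤
      10 ^ 8 * (∫⁻ y in M ∩ ball x (2 * r), ENNReal.ofReal (‖Hv M y‖ ^ 2) ∂μHE[2] +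
        μHE[2] (M ∩ ball x (2 * r)) / ENNReal.ofReal (r ^ 2) + b) := by
  obtain ⟨w, h1, h2, h3⟩ := h.exists_global hc
  exact local_gb' (U := {y | grad w y ≠ 0}) (w := w)
    ⟨isOpen_ne_fun (contDiff_grad_top h1).continuous continuous_const, h1, fun _ k => k,
      fun y _ => h2 y⟩ (fun y hy => norm_ne_zero_iff.1 (by rw [h3 y hy]; exact one_ne_zero)) hb x hr
    ((isCompact_closedBall _ _).inter_left hc)

/-- the same for the Hausdorff measure `μH[2]` and real integrals -/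
theorem local_gb_real : ∃ C : ℝ, 0 < C ∧ ∀ (M : Set E3) (b : ℕ) (x : E3) (r : ℝ), Surf M →
    IsClosed M → RankC M b → 0 < r → ∫ y in M ∩ ball x r, Asq M y ∂μH[2] ≤
      C * (∫ y in M ∩ ball x (2 * r), ‖Hv M y‖ ^ 2 ∂μH[2] +
        (μH[2] : Measure E3).real (M ∩ ball x (2 * r)) / r ^ 2 + b) := by
  have c0 := P218GA.cH_pos' 2
  refine ⟨10 ^ 8 * (1 + P218GA.cH 2), by positivity, fun M b x r h hc hb hr => ?_⟩
  have k := local_gb h hc hb x hr
  have e := P218GA.hausdorff_eq_smul (X := E3) 2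
  have hE : Module.finrank ℝ E3 = 2 + 1 := by simp
  have m : ∀ s, MeasurableSet (M ∩ ball x s) := fun s => h.measurableSet.inter measurableSet_ball
  have cp : ∀ s, IsCompact (M ∩ closedBall x s) := fun s => (isCompact_closedBall _ _).inter_left hc
  have sb : ∀ s, M ∩ ball x s ⊆ M ∩ closedBall x s := fun s =>
    inter_subset_inter_right _ ball_subset_closedBall
  have key : ∀ (g : E3 → ℝ) (s : ℝ), ContinuousOn g M → (∀ y ∈ M, 0 ≤ g y) →
      ENNReal.ofReal (∫ y in M ∩ ball x s, g y ∂μH[(2 : ℕ)]) =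
        P218GA.cH 2 * ∫⁻ y in M ∩ ball x s, ENNReal.ofReal (g y) ∂μHE[2] := fun g s h1 h2 => by
    rw [ofReal_integral_eq_lintegral_ofReal ((h.integrableOn_compact hE (cp s) inter_subset_left
      (h1.mono inter_subset_left)).mono_set (sb s))
      ((ae_restrict_mem (m s)).mono fun y hy => h2 y hy.1), e, Measure.restrict_smul,
      lintegral_smul_measure, ENNReal.smul_def, smul_eq_mul]
  have fin := ((measure_mono (sb (2 * r))).trans_lt
    (h.measure_lt_top hE (cp (2 * r)) inter_subset_left)).ne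
  have k1 := key _ r h.continuousOn_Asq fun y hy => h.Asq_nonneg hy
  have k2 := key _ (2 * r) (h.continuousOn_Hv.norm.pow 2) fun y _ => sq_nonneg _
  have k3 : ENNReal.ofReal ((μH[(2 : ℕ)] : Measure E3).real (M ∩ ball x (2 * r)) / r ^ 2) =
      P218GA.cH 2 * (μHE[2] (M ∩ ball x (2 * r)) / ENNReal.ofReal (r ^ 2)) := by
    rw [ENNReal.ofReal_div_of_pos (by positivity), ofReal_measureReal fin, e, Measure.smul_apply,
      ENNReal.smul_def, smul_eq_mul, mul_div_assoc]
  simp only [Nat.cast_ofNat, Pi.pow_apply] at k1 k2 k3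
  have n1 : 0 ≤ ∫ y in M ∩ ball x (2 * r), ‖Hv M y‖ ^ 2 ∂μH[2] := by positivity
  refine (ENNReal.ofReal_le_ofReal_iff (by positivity)).1 ?_
  rw [k1, ENNReal.ofReal_mul (by positivity), ENNReal.ofReal_add (by positivity) (by positivity),
    ENNReal.ofReal_add n1 (by positivity), k2, k3, ENNReal.ofReal_mul (by positivity),
    ENNReal.ofReal_add (by positivity) (by positivity), ENNReal.ofReal_natCast,
    ENNReal.ofReal_coe_nnreal, ENNReal.ofReal_one, ENNReal.ofReal_pow (by positivity),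
    ENNReal.ofReal_ofNat]
  refine (mul_le_mul_right k _).trans ?_
  generalize (∫⁻ y in M ∩ ball x (2 * r), ENNReal.ofReal (‖Hv M y‖ ^ 2) ∂μHE[2]) = A
  generalize μHE[2] (M ∩ ball x (2 * r)) / ENNReal.ofReal (r ^ 2) = B
  generalize (P218GA.cH 2 : ℝ≥0∞) = c
  calc _ ≤ c * (10 ^ 8 * (A + B + b)) + 10 ^ 8 * (c * (c * A + c * B) + b) := le_self_add
    _ = _ := by ring

end Vale.Agent.P218N.GB
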