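import Mathlib.Analysis.Calculus.Deriv.MeanValue
import Mathlib.Topology.Order.IntermediateValue

/-!
# P218N, block GB: orbits on the level set of a saddle

`Z` is the level set without the saddle `p`, with a flow without rest points whose orbits are open
in `Z`. The orbit of one outgoing arm contains exactly one of the two incoming arms.
-/

open Filter Topology Set

noncomputable section

namespace Vale.Agent.P218N.GB

variable {X : Type*} [TopologicalSpace X]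

/-- a flow on `Z` whose orbit segments are neighbourhoods in `Z` -/
structure Flw (Z : Set X) (γ : X → ℝ → X) : Prop where
  mem : ∀ q ∈ Z, ∀ t, γ q t ∈ Z
  cont : ∀ q ∈ Z, Continuous (γ q)
  zero : ∀ q ∈ Z, γ q 0 = q
  add : ∀ q ∈ Z, ∀ t u, γ (γ q t) u = γ q (t + u)
  loc : ∀ q ∈ Z, ∀ δ > 0, γ q '' Ioo (-δ) δ ∈ 𝓝[Z] q

/-- an outgoing arm at `p` with coordinate `ξ` -/
structure Arm (Z : Set X) (γ : X → ℝ → X) (p : X) (r : ℝ) (A : Set X) (ξ : X → ℝ) : Prop where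
  sub : A ⊆ Z
  opn : ∀ q ∈ A, A ∈ 𝓝[Z] q
  bij : BijOn ξ A (Ioo 0 r)
  cl : ∀ c < r, IsClosed ({a ∈ A | ξ a ≤ c} ∪ {p})
  der : ∀ q ∈ Z, ∀ t, γ q t ∈ A → ∃ α > 0, HasDerivAt (fun u => ξ (γ q u)) α t

variable {Z : Set X} {γ : X → ℝ → X} {p : X} {r : ℝ} {A : Set X} {ξ : X → ℝ}

theorem Flw.rev (F : Flw Z γ) : Flw Z fun q t => γ q (-t) where
  mem q hq t := F.mem q hq _
  cont q hq := (F.cont q hq).comp continuous_neg
  zero q hq := by simpa using F.zero q hq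
  add q hq t u := by rw [F.add q hq, neg_add]
  loc q hq δ hδ := by
    refine mem_of_superset (F.loc q hq δ hδ) ?_
    rintro _ ⟨t, ht, rfl⟩
    exact ⟨-t, ⟨by linarith [ht.2], by linarith [ht.1]⟩, by simp⟩

theorem Flw.range_eq (F : Flw Z γ) {q : X} (hq : q ∈ Z) {z : X} (hz : z ∈ range (γ q)) :
    range (γ z) = range (γ q) := by
  obtain ⟨t, rfl⟩ := hz
  ext y
  constructor
  · rintro ⟨u, rfl⟩
    exact ⟨t + u, (F.add q hq t u).symm⟩
  · rintro ⟨u, rfl⟩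
    exact ⟨u - t, by rw [F.add q hq, add_sub_cancel]⟩

theorem Flw.nhds_orbit (F : Flw Z γ) {q : X} (hq : q ∈ Z) : range (γ q) ∈ 𝓝[Z] q :=
  mem_of_superset (F.loc q hq 1 one_pos) (image_subset_range _ _)

theorem Flw.open_orbit (F : Flw Z γ) {q : X} (hq : q ∈ Z) {z : X} (hz : z ∈ range (γ q)) :
    range (γ q) ∈ 𝓝[Z] z := by
  obtain ⟨t, rfl⟩ := hz
  exact F.range_eq hq ⟨t, rfl⟩ ▸ F.nhds_orbit (F.mem q hq t)

theorem Flw.open_compl (F : Flw Z γ) {q : X} (hq : q ∈ Z) {z : X} (hz : z ∈ Z)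
    (h : z ∉ range (γ q)) : (range (γ q))ᶜ ∈ 𝓝[Z] z :=
  mem_of_superset (F.nhds_orbit hz) fun _ hy hy' =>
    h ((F.range_eq hq hy').symm.trans (F.range_eq hz hy) ▸ ⟨0, F.zero z hz⟩)

/-- a forward orbit in a compact part of `Z` is periodic -/
theorem Flw.periodic (F : Flw Z γ) {q : X} (hq : q ∈ Z) {K : Set X} (hK : IsCompact K)
    (hKZ : K ⊆ Z) (h : ∀ t ≥ 0, γ q t ∈ K) : ∃ T > 0, γ q (-T) = q := by
  obtain ⟨z, hz, hc⟩ := hK.exists_mapClusterPt (f := atTop) (u := γ q)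
    (le_principal_iff.2 (mem_map.2 ((eventually_ge_atTop 0).mono h)))
  obtain ⟨V, hV, hV'⟩ := mem_nhdsWithin_iff_exists_mem_nhds_inter.1 (F.loc z (hKZ hz) 1 one_pos)
  have fr : ∃ᶠ t in atTop, γ q t ∈ V := hc.frequently hV
  obtain ⟨t₁, h1⟩ := fr.exists
  obtain ⟨t₂, h2, h3⟩ := (fr.and_eventually (eventually_ge_atTop (t₁ + 2))).exists
  obtain ⟨u₁, hu₁, e₁⟩ := hV' ⟨h1, F.mem q hq t₁⟩
  obtain ⟨u₂, hu₂, e₂⟩ := hV' ⟨h2, F.mem q hq t₂⟩
  refine ⟨t₂ - u₂ - (t₁ - u₁), by linarith [hu₁.1, hu₂.2], ?_⟩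
  have k1 := congrArg (fun y => γ y (-u₁ - (t₂ - u₂))) e₁
  have k2 := congrArg (fun y => γ y (-t₂)) e₂
  simp only [F.add z (hKZ hz), F.add q hq, add_neg_cancel, F.zero q hq] at k1 k2
  rw [show u₂ + -t₂ = u₁ + (-u₁ - (t₂ - u₂)) by ring, k1] at k2
  rw [show -(t₂ - u₂ - (t₁ - u₁)) = t₁ + (-u₁ - (t₂ - u₂)) by ring, k2]

theorem Arm.mono (H : Arm Z γ p r A ξ) {q : X} (hq : q ∈ Z) {s t : ℝ} (hst : s < t)
    (h : ∀ u ∈ Icc s t, γ q u ∈ A) : ξ (γ q s) < ξ (γ q t) := by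
  choose α h1 h2 using fun u : Icc s t => H.der q hq u (h u u.2)
  refine strictMonoOn_of_deriv_pos (f := fun u => ξ (γ q u)) (convex_Icc s t)
    (fun x hx => (h2 ⟨x, hx⟩).continuousAt.continuousWithinAt) (fun x hx => ?_)
    (left_mem_Icc.2 hst.le) (right_mem_Icc.2 hst.le) hst
  rw [(h2 ⟨x, interior_subset hx⟩).deriv]
  exact h1 _

theorem Arm.ev (F : Flw Z γ) (H : Arm Z γ p r A ξ) {q : X} (hq : q ∈ Z) {t : ℝ}
    (h : γ q t ∈ A) : ∀ᶠ u in 𝓝 t, γ q u ∈ A :=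
  (tendsto_nhdsWithin_iff.2 ⟨(F.cont q hq).tendsto t, .of_forall (F.mem q hq)⟩).eventually
    (H.opn _ h)

/-- backward invariance of an outgoing arm -/
theorem Arm.back (F : Flw Z γ) (H : Arm Z γ p r A ξ) (hp : p ∉ Z) {q : X} (hq : q ∈ Z) {t : ℝ}
    (h : γ q t ∈ A) {s : ℝ} (hs : s ≤ t) : γ q s ∈ A := by
  have c := (H.bij.mapsTo h).2
  let S := {u : ℝ | γ q (-u) ∈ {a ∈ A | ξ a ≤ ξ (γ q t)} ∪ {p}}
  have hS : IsClosed S := (H.cl _ c).preimage ((F.cont q hq).comp continuous_neg)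
  have mem : ∀ u ∈ S, γ q (-u) ∈ A := fun u hu =>
    (hu.resolve_right fun e => hp (e ▸ F.mem q hq _)).1
  have key : Icc (-t) (-s) ⊆ S := by
    refine (hS.inter isClosed_Icc).Icc_subset_of_forall_mem_nhdsGT_of_Icc_subset
      (.inl ⟨by simpa using h, by simp⟩) fun u hu hu' => ?_
    have a1 := mem u (hu' (right_mem_Icc.2 hu.1))
    obtain ⟨ε, hε, a2⟩ := Metric.eventually_nhds_iff.1 (H.ev F hq a1)
    filter_upwards [Ioo_mem_nhdsGT (lt_add_of_pos_right u hε)] with v hv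
    have a3 : ∀ w ∈ Icc (-v) t, γ q w ∈ A := fun w hw => by
      rcases le_total w (-u) with k | k
      · exact a2 (by
          rw [Real.dist_eq, abs_lt]
          constructor <;> linarith [hw.1, hv.2])
      · simpa using mem (-w) (hu' ⟨by linarith [hw.2], by linarith⟩)
    have a4 : -v < t := by linarith [hu.1, hv.1]
    exact .inl ⟨a3 _ (left_mem_Icc.2 a4.le), (H.mono hq a4 a3).le⟩
  simpa using mem _ (key (right_mem_Icc.2 (neg_le_neg hs)))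

/-- an arm lies in one orbit -/
theorem Arm.one (F : Flw Z γ) (H : Arm Z γ p r A ξ) {q : X} (hq : q ∈ Z) {t : ℝ}
    (h : γ q t ∈ A) : A ⊆ range (γ q) := by
  have opn : ∀ (P : Set X), (∀ z ∈ P, z ∈ Z → ∀ u, γ z u ∈ P) → IsOpen (ξ '' (A ∩ P)) := by
    intro P hP
    refine isOpen_iff_mem_nhds.2 ?_
    rintro _ ⟨z, ⟨hz, hz'⟩, rfl⟩
    have hZ := H.sub hz
    have z0 : γ z 0 ∈ A := (F.zero z hZ).symm ▸ hz
    obtain ⟨ε, hε, a2⟩ := Metric.eventually_nhds_iff.1 (H.ev F hZ z0)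
    have a3 : ∀ w ∈ Icc (-(ε / 2)) (ε / 2), γ z w ∈ A := fun w hw => a2 (by
      rw [Real.dist_eq, abs_lt]
      constructor <;> linarith [hw.1, hw.2])
    have l1 := H.mono hZ (neg_neg_of_pos (half_pos hε)) fun w hw =>
      a3 w ⟨hw.1, hw.2.trans (half_pos hε).le⟩
    have l2 := H.mono hZ (half_pos hε) fun w hw => a3 w ⟨by linarith [hw.1], hw.2⟩
    rw [F.zero z hZ] at l1 l2
    refine mem_of_superset (Icc_mem_nhds l1 l2) fun y hy => ?_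
    obtain ⟨w, hw, e⟩ := intermediate_value_Icc (f := fun u => ξ (γ z u))
      (by linarith : -(ε / 2) ≤ ε / 2) (fun x hx =>
        (H.der z hZ x (a3 x hx)).choose_spec.2.continuousAt.continuousWithinAt) hy
    exact ⟨_, ⟨a3 w hw, hP z hz' hZ w⟩, e⟩
  have o1 := opn (range (γ q)) fun z hz _ u => F.range_eq hq hz ▸ ⟨u, rfl⟩
  have o2 := opn (range (γ q))ᶜ fun z hz hZ u k =>
    hz ((F.range_eq hq k).symm.trans (F.range_eq hZ ⟨u, rfl⟩) ▸ ⟨0, F.zero z hZ⟩)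
  have dj : Disjoint (ξ '' (A ∩ range (γ q))) (ξ '' (A ∩ (range (γ q))ᶜ)) := by
    refine disjoint_left.2 ?_
    rintro _ ⟨a, ha, rfl⟩ ⟨b, hb, e⟩
    exact hb.2 (H.bij.injOn hb.1 ha.1 e ▸ ha.2)
  have := (isPreconnected_Ioo (a := 0) (b := r)).subset_left_of_subset_union o1 o2 dj
    (by rw [← image_union, inter_union_compl]; exact H.bij.surjOn)
    ⟨_, H.bij.mapsTo h, _, ⟨h, t, rfl⟩, rfl⟩
  intro a ha
  obtain ⟨b, hb, e⟩ := this (H.bij.mapsTo ha)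
  exact H.bij.injOn hb.1 ha e ▸ hb.2

/-- **Pairing of the arms at a saddle.** -/
theorem pairing {E W N S : Set X} {ξE ξW ξN ξS : X → ℝ} (F : Flw Z γ) (hp : p ∉ Z) (hr : 0 < r)
    (hZ : IsCompact (Z ∪ {p})) (hE : Arm Z γ p r E ξE) (hW : Arm Z γ p r W ξW)
    (hN : Arm Z (fun q t => γ q (-t)) p r N ξN) (hS : Arm Z (fun q t => γ q (-t)) p r S ξS)
    (EW : Disjoint E W) (NS : Disjoint N S)
    (hnb : ∀ c > 0, ∃ V, IsOpen V ∧ p ∈ V ∧ ∀ z ∈ Z ∩ V, (z ∈ E ∧ ξE z < c) ∨ z ∈ W ∨ z ∈ N ∨ z ∈ S) :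
    ∃ O ⊆ Z, (∀ z ∈ O, O ∈ 𝓝[Z] z) ∧ (∀ z ∈ Z \ O, Oᶜ ∈ 𝓝[Z] z) ∧ E ⊆ O ∧ Disjoint W O ∧
      ((N ⊆ O ∧ Disjoint S O) ∨ (S ⊆ O ∧ Disjoint N O)) := by
  obtain ⟨q, hq, e⟩ := hE.bij.surjOn (show r / 2 ∈ Ioo 0 r from ⟨half_pos hr, half_lt_self hr⟩)
  have qZ := hE.sub hq
  have q0 : γ q 0 ∈ E := (F.zero q qZ).symm ▸ hq
  have dW : Disjoint W (range (γ q)) := by
    refine disjoint_left.2 ?_
    rintro _ h ⟨t, rfl⟩
    exact disjoint_left.1 EW (hE.back F hp qZ q0 (min_le_left 0 t))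
      (hW.back F hp qZ h (min_le_right 0 t))
  have dNS : ∀ t u, γ q t ∈ N → γ q u ∈ S → False := fun t u h1 h2 =>
    disjoint_left.1 NS
      (hN.back F.rev hp qZ (t := -t) (by simpa using h1) (min_le_left (-t) (-u)))
      (hS.back F.rev hp qZ (t := -u) (by simpa using h2) (min_le_right (-t) (-u)))
  have sub : ∀ {B : Set X} {η : X → ℝ}, Arm Z (fun q t => γ q (-t)) p r B η → ∀ t, γ q t ∈ B →
      B ⊆ range (γ q) := fun H t h a ha => by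
    obtain ⟨u, hu⟩ := H.one F.rev qZ (t := -t) (by simpa using h) ha
    exact ⟨_, hu⟩
  refine ⟨range (γ q), range_subset_iff.2 (F.mem q qZ), fun z hz => F.open_orbit qZ hz,
    fun z hz => F.open_compl qZ hz.1 hz.2, hE.one F qZ q0, dW, ?_⟩
  obtain ⟨V, V1, V2, V3⟩ := hnb (r / 2) (half_pos hr)
  by_cases k : ∀ t ≥ 0, γ q t ∉ V
  · obtain ⟨T, hT, e'⟩ := F.periodic qZ (hZ.diff V1)
      (fun z hz => hz.1.resolve_right fun e => hz.2 (e ▸ V2))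
      fun t ht => ⟨.inl (F.mem q qZ t), k t ht⟩
    have := hE.mono qZ (neg_neg_of_pos hT) fun u hu => hE.back F hp qZ q0 hu.2
    rw [e', F.zero q qZ] at this
    exact this.false.elim
  push Not at k
  obtain ⟨t, ht, k⟩ := k
  rcases V3 _ ⟨F.mem q qZ t, k⟩ with ⟨k1, k2⟩ | k1 | k1 | k1
  · rcases ht.eq_or_lt with rfl | ht
    · rw [F.zero q qZ, e] at k2
      exact k2.false.elim
    · have := hE.mono qZ ht fun u hu => hE.back F hp qZ k1 hu.2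
      rw [F.zero q qZ, e] at this
      exact (this.trans k2).false.elim
  · exact (disjoint_left.1 dW k1 ⟨t, rfl⟩).elim
  · exact .inl ⟨sub hN t k1, disjoint_left.2 fun _ h ⟨u, hu⟩ => dNS t u k1 (hu ▸ h)⟩
  · exact .inr ⟨sub hS t k1, disjoint_left.2 fun _ h ⟨u, hu⟩ => dNS u t (hu ▸ h) k1⟩

end Vale.Agent.P218N.GB
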