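import Vale.Agent.P218N.GB.Count
import Mathlib.Topology.Homotopy.Lifting
import Mathlib.Topology.Covering.AddCircle
import Mathlib.Topology.UniformSpace.OfCompactT2
import Mathlib.Topology.UniformSpace.Compact
import Mathlib.Analysis.Convex.Contractible
import Mathlib.Topology.Algebra.Module.LocallyConvex
import Mathlib.Analysis.LocallyConvex.WithSeminorms
import Mathlib.Geometry.Manifold.ChartedSpace
import Mathlib.LinearAlgebra.Dimension.Finite
import Mathlib.LinearAlgebra.FreeModule.StrongRankCondition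
import Mathlib.Analysis.Normed.Module.Convex
import Mathlib.LinearAlgebra.Dimension.Constructions
import Mathlib.AlgebraicTopology.FundamentalGroupoid.SimplyConnected

/-!
# P218N, block GB: a compact manifold has only finitely many independent maps to the circle
-/

open Filter Topology Set Uniformity

noncomputable section

namespace Vale.Agent.P218N.GB

/-- all maps to the circle have real lifts on `U` -/
def Lifts {X : Type*} [TopologicalSpace X] (U : Set X) : Prop :=
  ∀ u : C(X, UnitAddCircle), ∃ w : X → ℝ, ContinuousOn w U ∧ ∀ y ∈ U, (w y : UnitAddCircle) = u y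

theorem rank_of_lifts {X : Type*} [UniformSpace X] [CompactSpace X] [LocallyConnectedSpace X]
    (h : ∀ x : X, ∃ U ∈ 𝓝 x, Lifts U) : ∃ b, Rank X b := by
  classical
  choose U U1 U2 using h
  obtain ⟨n, hn, H⟩ := lebesgue_number_lemma_nhds (U := U) isCompact_univ fun x _ => U1 x
  obtain ⟨t, ht, ts, tn⟩ := comp_comp_symm_mem_uniformity_sets hn
  let V : X → Set X := fun x => connectedComponentIn (interior (UniformSpace.ball x t)) x
  have Vo : ∀ x, IsOpen (V x) := fun x => isOpen_interior.connectedComponentIn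
  have Vx : ∀ x, x ∈ V x := fun x =>
    mem_connectedComponentIn (mem_interior_iff_mem_nhds.2 (UniformSpace.ball_mem_nhds x ht))
  have Vt : ∀ x, ∀ y ∈ V x, (x, y) ∈ t := fun x y hy =>
    interior_subset (s := UniformSpace.ball x t) (connectedComponentIn_subset _ _ hy)
  have VU : ∀ a b z, z ∈ V a → z ∈ V b → Lifts (V a ∪ V b) := fun a b z ha hb u => by
    obtain ⟨y, hy⟩ := H a trivial
    obtain ⟨w, w1, w2⟩ := U2 y u
    have k : ∀ b z, z ∈ V a → z ∈ V b → V b ⊆ U y := fun b z ha hb x hx =>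
      hy (tn ⟨b, ⟨z, Vt a z ha, ts.symm _ _ (Vt b z hb)⟩, Vt b x hx⟩)
    have : V a ∪ V b ⊆ U y := union_subset (k a a (Vx a) (Vx a)) (k b z ha hb)
    exact ⟨w, w1.mono this, fun x hx => w2 x (this hx)⟩
  obtain ⟨A, hA⟩ := isCompact_univ.elim_finite_subcover V Vo fun x _ => mem_iUnion.2 ⟨x, Vx x⟩
  refine ⟨Fintype.card (A × A), fun ι _ u hb => ?_⟩
  choose l l1 l2 using fun (a : X) (i : ι) => VU a a a (Vx a) (Vx a) (u i)
  simp only [union_self] at l1 l2
  have key : ∀ (i : ι) (p : A × A), ∃ k : ℤ, ∀ z ∈ V p.1, z ∈ V p.2 → l p.1 i z - l p.2 i z = k := by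
    rintro i ⟨⟨a, _⟩, ⟨b, _⟩⟩
    by_cases ne : ∃ z₀ ∈ V a, z₀ ∈ V b
    swap
    · exact ⟨0, fun z h1 h2 => (ne ⟨z, h1, h2⟩).elim⟩
    obtain ⟨z₀, ha, hb⟩ := ne
    obtain ⟨k, hk⟩ := (AddCircle.coe_eq_zero_iff (p := (1 : ℝ)) (x := l a i z₀ - l b i z₀)).1 (by
      rw [AddCircle.coe_sub, l2 a i z₀ ha, l2 b i z₀ hb, sub_self])
    obtain ⟨w, w1, w2⟩ := VU a b z₀ ha hb (u i)
    have c : ∀ c, V c ⊆ V a ∪ V b → ∀ x ∈ V c, ∀ y ∈ V c, l c i x - w x = l c i y - w y :=
      fun c hc x hx y hy => int_const isPreconnected_connectedComponentIn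
        ((l1 c i).sub (w1.mono hc)) (fun x hx => by
          rw [Pi.sub_apply, AddCircle.coe_sub, l2 c i x hx, w2 x (hc hx), sub_self]) hx hy
    refine ⟨k, fun z h1 h2 => ?_⟩
    have e1 := c a subset_union_left z h1 z₀ ha
    have e2 := c b subset_union_right z h2 z₀ hb
    simp only [zsmul_eq_mul, mul_one] at hk
    linarith
  choose k hk using key
  have : ¬ LinearIndependent ℤ k := fun li => by
    have := li.fintype_card_le_finrank
    rw [Module.finrank_fintype_fun_eq_card] at this
    omega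
  obtain ⟨m, m1, i₀, m2⟩ := Fintype.not_linearIndependent_iff.1 this
  choose a a1 a2 using fun x => mem_iUnion₂.1 (hA (mem_univ x))
  have agree : ∀ b ∈ A, ∀ x ∈ V b, ∑ i, m i * l (a x) i x = ∑ i, m i * l b i x := by
    intro b hb x hx
    have e := congrFun m1 (⟨a x, a1 x⟩, ⟨b, hb⟩)
    rw [Finset.sum_apply, Pi.zero_apply] at e
    rw [← sub_eq_zero, ← Finset.sum_sub_distrib]
    rw [Finset.sum_congr rfl fun i _ => by
      rw [← mul_sub, hk i (⟨a x, a1 x⟩, ⟨b, hb⟩) x (a2 x) hx]]
    exact_mod_cast e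
  refine ⟨m, fun e => m2 (congrFun e i₀), ⟨fun x => ∑ i, m i * l (a x) i x, ?_⟩, fun x => ?_⟩
  · refine continuous_iff_continuousAt.2 fun x => ?_
    have o := (Vo (a x)).mem_nhds (a2 x)
    refine ((continuousOn_finsetSum Finset.univ fun i _ =>
      (continuousOn_const (c := (m i : ℝ))).mul (l1 (a x) i)).continuousAt o).congr ?_
    filter_upwards [o] with y hy using (agree _ (a1 x) y hy).symm
  · change (((∑ i, m i * l (a x) i x : ℝ)) : UnitAddCircle) = _
    rw [← QuotientAddGroup.mk'_apply, map_sum]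
    exact Finset.sum_congr rfl fun i _ => by
      rw [← zsmul_eq_mul, map_zsmul, QuotientAddGroup.mk'_apply, l2 _ i x (a2 x)]

theorem lifts_chart {X H : Type*} [TopologicalSpace X] [NormedAddCommGroup H] [NormedSpace ℝ H]
    (e : OpenPartialHomeomorph X H) {x : X} (hx : x ∈ e.source) : ∃ U ∈ 𝓝 x, Lifts U := by
  classical
  obtain ⟨r, hr, hb⟩ := Metric.isOpen_iff.1 e.open_target _ (e.map_source hx)
  refine ⟨e.source ∩ e ⁻¹' Metric.ball (e x) r, (e.isOpen_inter_preimage Metric.isOpen_ball).mem_nhds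
    ⟨hx, Metric.mem_ball_self hr⟩, fun u => ?_⟩
  have := (convex_ball (e x) r).contractibleSpace ⟨_, Metric.mem_ball_self hr⟩
  have := (convex_ball (e x) r).locallyPathConnectedSpace
  obtain ⟨w₀, hw₀⟩ := QuotientAddGroup.mk_surjective (u (e.symm (e x)))
  obtain ⟨F, ⟨-, hF⟩, -⟩ := (AddCircle.isCoveringMap_coe (1 : ℝ)).existsUnique_continuousMap_lifts
    (⟨fun z => u (e.symm z), u.continuous.comp
      (e.continuousOn_symm.mono hb).domRestrict⟩ : C(Metric.ball (e x) r, UnitAddCircle))
    ⟨e x, Metric.mem_ball_self hr⟩ w₀ hw₀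
  refine ⟨fun y => if h : e y ∈ Metric.ball (e x) r then F ⟨e y, h⟩ else 0, ?_, fun y hy => ?_⟩
  · rw [continuousOn_iff_continuous_domRestrict]
    refine (F.continuous.comp (Continuous.subtype_mk
      (e.continuousOn.mono inter_subset_left).domRestrict fun y => y.2.2)).congr fun y => ?_
    change F ⟨e y, y.2.2⟩ = if h : e y ∈ Metric.ball (e x) r then F ⟨e y, h⟩ else 0
    rw [dif_pos (show e y ∈ Metric.ball (e x) r from y.2.2)]
  · have := congrFun hF ⟨e y, hy.2⟩
    simp only [dif_pos (show e y ∈ Metric.ball (e x) r from hy.2)]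
    exact this.trans (congrArg u (e.left_inv hy.1))

/-- a compact space which is locally homeomorphic to a normed space has finite rank -/
theorem rank_of_charts {X H : Type*} [TopologicalSpace X] [CompactSpace X] [T2Space X]
    [NormedAddCommGroup H] [NormedSpace ℝ H] [ChartedSpace H X] : ∃ b, Rank X b := by
  have := ChartedSpace.locallyConnectedSpace H X
  let : UniformSpace X := uniformSpaceOfCompactR1
  exact rank_of_lifts fun x => lifts_chart (chartAt H x) (mem_chart_source H x)

end Vale.Agent.P218N.GB
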