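import Vale.Agent.P218N.GB.Focal

/-!
# P218N, block GB: the area formula for the focal map, and generic centres
-/

open MeasureTheory Filter Topology Set Metric
open scoped ENNReal NNReal RealInnerProductSpace ContDiff

noncomputable section

namespace Vale.Agent.P218N.GB

open Vale.Agent.P218.H313 Vale.Agent.P218N.H Vale.Agent.P218GA

variable {M U : Set E3} {w : E3 → ℝ}

theorem exists_ab {n : V3 →L[ℝ] ℝ} (hn : n ≠ 0) : ∃ a b : V3 →L[ℝ] ℝ, a (cr b n) ≠ 0 := by
  by_contra! h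
  have e0 := h (EuclideanSpace.proj 1) (EuclideanSpace.proj 2)
  have e1 := h (EuclideanSpace.proj 2) (EuclideanSpace.proj 0)
  have e2 := h (EuclideanSpace.proj 0) (EuclideanSpace.proj 1)
  simp [cr, bs] at e0 e1 e2
  refine hn (ContinuousLinearMap.ext fun v => ?_)
  rw [clm_eq]
  simp [bs, e0, e1, e2]

theorem meas_pre {X Y : Type*} [TopologicalSpace X] [MeasurableSpace X] [OpensMeasurableSpace X]
    [TopologicalSpace Y] [MeasurableSpace Y] [BorelSpace Y] {f : X → Y} {s : Set X} {B : Set Y}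
    (hs : MeasurableSet s) (hf : ContinuousOn f s) (hB : MeasurableSet B) :
    MeasurableSet (s ∩ f ⁻¹' B) := by
  convert hs.subtype_image (hf.domRestrict.measurable hB) using 1
  ext x
  simp [and_comm]

variable {p : V3} {a b : V3 →L[ℝ] ℝ} {O : Set V3} {ψ : ℝ × ℝ → V3} {r : ℝ}

theorem Chart.image (C : Chart M w p a b O ψ r) : ψ '' ball 0 r = M ∩ O :=
  Subset.antisymm (image_subset_iff.2 C.mem) fun x hx => ⟨_, (C.left x hx.1 hx.2).1,
    (C.left x hx.1 hx.2).2⟩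

theorem Chart.injOn (C : Chart M w p a b O ψ r) : InjOn ψ (ball 0 r) := fun u hu v hv e => by
  rw [← C.right u hu, ← C.right v hv, e]

/-- the area formula in a chart -/
theorem Chart.lintegral (C : Chart M w p a b O ψ r) (g : V3 → ℝ≥0∞) :
    ∫⁻ x in M ∩ O, g x ∂μHE[2] = ∫⁻ u in ball (0 : ℝ × ℝ) r,
      ENNReal.ofReal (par (fderiv ℝ ψ u (1, 0)) (fderiv ℝ ψ u (0, 1))) * g (ψ u) := by
  have k := isJac_prod.lintegral_image isOpen_ball (C.sm.of_le (by norm_num))
    (fun u hu => (injective_iff_map_eq_zero _).2 fun v hv => Prod.ext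
      (by simpa [hv] using (C.da u hu v).symm) (by simpa [hv] using (C.db u hu v).symm))
    measurableSet_ball subset_rfl C.injOn g
  have e := hausdorff_eq_smul (X := V3) 2
  rw [Nat.cast_ofNat] at e
  rw [C.image, e, Measure.restrict_smul, lintegral_smul_measure] at k
  simp only [jac2, ENNReal.ofReal_mul (cH 2).coe_nonneg, ENNReal.ofReal_coe_nnreal, mul_assoc] at k
  rw [lintegral_const_mul' _ _ ENNReal.coe_ne_top, ENNReal.smul_def, smul_eq_mul] at k
  exact (ENNReal.mul_right_inj (ENNReal.coe_ne_zero.2 (cH_pos 2).ne') ENNReal.coe_ne_top).1 k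

/-- coordinates -/
def crd : V3 ≃ᵐ ℝ × ℝ × ℝ :=
  (MeasurableEquiv.toLp 2 (Fin 3 → ℝ)).symm.trans ((MeasurableEquiv.piFinSuccAbove (fun _ => ℝ) 0).trans
    ((MeasurableEquiv.refl ℝ).prodCongr MeasurableEquiv.finTwoArrow))

theorem crd_apply (z : V3) : crd z = (z 0, z 1, z 2) := rfl

theorem mp_crd : MeasurePreserving crd volume volume :=
  (((MeasurePreserving.id volume).prod (volume_preserving_finTwoArrow ℝ)).comp
    (volume_preserving_piFinSuccAbove (fun _ => ℝ) 0)).comp (PiLp.volume_preserving_ofLp (Fin 3))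

theorem abs_det_frame (L : ℝ × ℝ →L[ℝ] V3) {n : V3} (hn : ‖n‖ = 1) (h : ∀ v, ⟪n, L v⟫ = 0) :
    |(L.comp ((EuclideanSpace.proj 1).prod (EuclideanSpace.proj 2)) +
      (EuclideanSpace.proj 0).smulRight n : V3 →L[ℝ] V3).det| = par (L (1, 0)) (L (0, 1)) := by
  rw [ContinuousLinearMap.det, ← LinearMap.normDet_eq_abs_det,
    normDet_eq_sqrt _ (EuclideanSpace.basisFun (Fin 3) ℝ), Matrix.det_fin_three, par]
  congr 1
  have h' : ∀ v, ⟪L v, n⟫ = 0 := fun v => by rw [real_inner_comm, h]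
  have z : L (0, 0) = 0 := L.map_zero
  simp [Matrix.gram_apply, h, h', z, hn, real_inner_comm (L (1, 0)) (L (0, 1))]
  ring

/-- the number of focal pairs in `B` over `c` -/
def cnt (M : Set E3) (w : E3 → ℝ) (B : Set (E3 × ℝ)) (c : E3) : ℝ≥0∞ :=
  ({q ∈ B | q.1 ∈ M ∧ foc w q = c}.encard : ℝ≥0∞)

theorem Chart.focal (C : Chart M w p a b O ψ r) (h : LocDef M U w) (hM : M ⊆ U)
    {B : Set (E3 × ℝ)} (hB : MeasurableSet B) (hO : ∀ q ∈ B, q.1 ∈ O) :
    AEMeasurable (cnt M w B) volume ∧ ∫⁻ c, cnt M w B c =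
      ∫⁻ x in M, (∫⁻ t, B.indicator (fun q => ENNReal.ofReal |Jf w q|) (x, t)) ∂μHE[2] := by
  have hw := h.smooth
  let π : V3 →L[ℝ] ℝ × ℝ := (EuclideanSpace.proj 1).prod (EuclideanSpace.proj 2)
  let Θ : V3 → E3 × ℝ := fun z => (ψ (π z), z 0)
  have o : IsOpen (π ⁻¹' ball 0 r) := isOpen_ball.preimage π.continuous
  have cΘ : ContDiffOn ℝ 1 Θ (π ⁻¹' ball 0 r) :=
    ((C.sm.of_le (by norm_num)).comp π.contDiff.contDiffOn fun z hz => hz).prodMk
      (EuclideanSpace.proj (𝕜 := ℝ) (0 : Fin 3)).contDiff.contDiffOn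
  have g0 : ∀ u ∈ ball (0 : ℝ × ℝ) r, grad w (ψ u) ≠ 0 := fun u hu => h.ne _ (hM (C.mem u hu).1)
  have m := meas_pre o.measurableSet cΘ.continuousOn hB
  obtain ⟨k1, k2⟩ := mult volume (f := fun z => foc w (Θ z)) o (fun z hz =>
    ((contDiffAt_foc hw (p := Θ z) (g0 _ hz)).of_le (by exact_mod_cast le_top)).comp_contDiffWithinAt
      z (cΘ z hz)) m inter_subset_left
  have ec : ∀ c, (((π ⁻¹' ball 0 r ∩ Θ ⁻¹' B) ∩ (fun z => foc w (Θ z)) ⁻¹' {c}).encard : ℝ≥0∞) =
      cnt M w B c := fun c => by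
    rw [cnt, ← InjOn.encard_image (f := Θ) fun z hz z' hz' e => ?_]
    · congr 2
      refine Subset.antisymm ?_ fun q hq => ?_
      · rintro _ ⟨z, hz, rfl⟩
        exact ⟨hz.1.2, (C.mem _ hz.1.1).1, hz.2⟩
      · obtain ⟨u, hu, e⟩ := C.image.ge ⟨hq.2.1, hO q hq.1⟩
        have e' : Θ !₂[q.2, u.1, u.2] = q := Prod.ext e rfl
        exact ⟨_, ⟨⟨hu, e'.symm ▸ hq.1⟩, by rw [mem_preimage, e']; exact hq.2.2⟩, e'⟩
    · have e1 := C.injOn hz.1.1 hz'.1.1 (congrArg Prod.fst e)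
      ext i
      fin_cases i
      exacts [congrArg Prod.snd e, congrArg Prod.fst e1, congrArg Prod.snd e1]
  simp only [ec] at k1 k2
  refine ⟨k1, k2.trans ?_⟩
  have hd : ∀ z ∈ π ⁻¹' ball 0 r, |(fderiv ℝ (fun z => foc w (Θ z)) z).det| =
      par (fderiv ℝ ψ (π z) (1, 0)) (fderiv ℝ ψ (π z) (0, 1)) * |Jf w (Θ z)| := fun z hz => by
    have d1 := (C.diff hz).comp z π.hasFDerivAt
    have d := d1.add ((EuclideanSpace.proj (𝕜 := ℝ) (0 : Fin 3)).hasFDerivAt.smul
      (((contDiffAt_nuW hw (g0 _ hz)).differentiableAt (by simp)).hasFDerivAt.comp z d1))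
    have t : ∀ v, ⟪grad w (ψ (π z)), fderiv ℝ ψ (π z) v⟫ = 0 := fun v => by
      rw [inner_grad, C.dw _ hz]
    rw [show fderiv ℝ (fun z => foc w (Θ z)) z = _ from d.fderiv,
      ← abs_det_frame _ (norm_nuW (g0 _ hz)) fun v => by
        rw [nuW, real_inner_smul_left, t, mul_zero], ← abs_mul, mul_comm, Jf]
    simp only [ContinuousLinearMap.det]
    rw [← LinearMap.det_comp]
    congr 2
    refine LinearMap.ext fun v => ?_
    have e : AW w (ψ (π z)) (fderiv ℝ ψ (π z) (π v)) =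
        fderiv ℝ (nuW w) (ψ (π z)) (fderiv ℝ ψ (π z) (π v)) := by
      rw [AW_eq hw (g0 _ hz), ContinuousLinearMap.comp_apply, PW_of_inner (t _)]
    change fderiv ℝ ψ (π z) (π v) + (z 0 • fderiv ℝ (nuW w) (ψ (π z)) (fderiv ℝ ψ (π z) (π v)) +
      v 0 • nuW w (ψ (π z))) = (fderiv ℝ ψ (π z) (π v) + v 0 • nuW w (ψ (π z))) +
        z 0 • AW w (ψ (π z)) (fderiv ℝ ψ (π z) (π v) + v 0 • nuW w (ψ (π z)))
    rw [map_add, map_smul, AW_nu (g0 _ hz), e, smul_zero, add_zero]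
    abel
  let G : ℝ × ℝ × ℝ → ℝ≥0∞ := fun q => (ball (0 : ℝ × ℝ) r).indicator (fun u =>
    ENNReal.ofReal (par (fderiv ℝ ψ u (1, 0)) (fderiv ℝ ψ u (0, 1))) *
      B.indicator (fun q => ENNReal.ofReal |Jf w q|) (ψ u, q.1)) q.2
  have eG : ((π ⁻¹' ball 0 r ∩ Θ ⁻¹' B).indicator fun z =>
      ENNReal.ofReal |(fderiv ℝ (fun z => foc w (Θ z)) z).det|) = fun z => G (crd z) := by
    ext z
    change _ = (ball (0 : ℝ × ℝ) r).indicator (fun u => _ * B.indicator _ (ψ u, z 0)) (π z)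
    by_cases k : π z ∈ ball (0 : ℝ × ℝ) r
    · rw [indicator_of_mem k]
      by_cases k' : Θ z ∈ B
      · rw [indicator_of_mem (show z ∈ π ⁻¹' ball 0 r ∩ Θ ⁻¹' B from ⟨k, k'⟩), indicator_of_mem k',
          hd z k]
        exact ENNReal.ofReal_mul (Real.sqrt_nonneg _)
      · rw [indicator_of_notMem (fun l => k' l.2), indicator_of_notMem k', mul_zero]
    · rw [indicator_of_notMem (fun l => k l.1), indicator_of_notMem k]
  have mG : Measurable G := by
    rw [← crd.measurable_comp_iff]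
    change Measurable fun z => G (crd z)
    rw [← eG]
    exact (ENNReal.measurable_ofReal.comp (continuous_abs.comp
      ContinuousLinearMap.continuous_det).measurable |>.comp (measurable_fderiv ℝ _)).indicator m
  rw [← lintegral_indicator m, eG, mp_crd.lintegral_comp mG, Measure.volume_eq_prod,
    lintegral_prod_symm _ mG.aemeasurable, ← lintegral_inter_add_sdiff _ M C.opn.measurableSet,
    C.lintegral, setLIntegral_congr_fun ((h.isOpen.measurableSet.inter (isClosed_eq hw.continuous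
      continuous_const).measurableSet |>.congr (Subset.antisymm (fun x hx => (h.mem_iff x hx.1).2 hx.2)
        fun x hx => ⟨hM hx, h.zero (hM hx) hx⟩)).diff C.opn.measurableSet) (g := fun _ => 0)
      fun x hx => by
        simp only [indicator_of_notMem fun l : (x, _) ∈ B => hx.2 (hO _ l), lintegral_zero],
    lintegral_zero, add_zero, ← lintegral_indicator measurableSet_ball]
  refine lintegral_congr fun u => ?_
  by_cases k : u ∈ ball (0 : ℝ × ℝ) r
  · simp only [G, indicator_of_mem k]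
    rw [lintegral_const_mul' _ _ ENNReal.ofReal_ne_top]
  · simp only [G, indicator_of_notMem k, lintegral_zero]

/-- **Area formula for the focal map**, with multiplicity. -/
theorem focal_area (h : LocDef M U w) (hM : M ⊆ U) {B : Set (E3 × ℝ)} (hB : MeasurableSet B) :
    AEMeasurable (cnt M w B) volume ∧ ∫⁻ c, cnt M w B c =
      ∫⁻ x in M, (∫⁻ t, B.indicator (fun q => ENNReal.ofReal |Jf w q|) (x, t)) ∂μHE[2] := by
  have H := toCS h hM
  have loc : ∀ x ∈ M, ∃ O ∈ 𝓝 x, ∀ B : Set (E3 × ℝ), MeasurableSet B → (∀ q ∈ B, q.1 ∈ O) →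
      AEMeasurable (cnt M w B) volume ∧ ∫⁻ c, cnt M w B c =
      ∫⁻ x in M, (∫⁻ t, B.indicator (fun q => ENNReal.ofReal |Jf w q|) (x, t)) ∂μHE[2] := by
    intro x hx
    obtain ⟨a, b, k⟩ := exists_ab (H.reg x hx)
    obtain ⟨O, ψ, r, C⟩ := H.exists_chart hx k
    exact ⟨O, C.opn.mem_nhds (C.zero ▸ (C.mem 0 (mem_ball_self C.pos)).2),
      fun B hB hO => C.focal h hM hB hO⟩
  choose! O O1 O2 using loc
  obtain ⟨A, A1, A2, A3, A4⟩ := exists_partition O1
  have key : ∀ n, AEMeasurable (cnt M w (B ∩ A n ×ˢ univ)) volume ∧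
      ∫⁻ c, cnt M w (B ∩ A n ×ˢ univ) c = ∫⁻ x in M ∩ A n,
        (∫⁻ t, B.indicator (fun q => ENNReal.ofReal |Jf w q|) (x, t)) ∂μHE[2] := fun n => by
    rcases A4 n with k | ⟨x, hx, k⟩
    · have : cnt M w (B ∩ A n ×ˢ univ) = fun _ => 0 := by
        ext c
        simp [k, cnt]
      rw [this, k]
      simp
    obtain ⟨k1, k2⟩ := O2 x hx (B ∩ A n ×ˢ univ) (hB.inter ((A1 n).prod .univ)) fun q hq => k hq.2.1
    refine ⟨k1, k2.trans ?_⟩
    rw [inter_comm M, ← Measure.restrict_restrict (A1 n), ← lintegral_indicator (A1 n)]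
    refine lintegral_congr fun y => ?_
    by_cases l : y ∈ A n
    · rw [indicator_of_mem l]
      refine lintegral_congr fun t => ?_
      by_cases l' : (y, t) ∈ B <;> simp [indicator, l, l']
    · simp [indicator, l]
  have e : cnt M w B = fun c => ∑' n, cnt M w (B ∩ A n ×ˢ univ) c := by
    ext c
    rw [cnt, show {q ∈ B | q.1 ∈ M ∧ foc w q = c} =
      ⋃ n, {q ∈ B ∩ A n ×ˢ univ | q.1 ∈ M ∧ foc w q = c} from Subset.antisymm (fun q hq =>
        let ⟨n, hn⟩ := mem_iUnion.1 (A3 hq.2.1)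
        mem_iUnion.2 ⟨n, ⟨hq.1, hn, trivial⟩, hq.2⟩) (iUnion_subset fun n q hq => ⟨hq.1.1, hq.2⟩),
      encard_iUnion fun i j k => disjoint_left.2 fun q h1 h2 =>
        disjoint_left.1 (A2 k) h1.1.2.1 h2.1.2.1]
    rfl
  have mM : MeasurableSet M := Surf.measurableSet fun x hx => ⟨w, U, hM hx, h⟩
  rw [e]
  refine ⟨AEMeasurable.tsum fun n => (key n).1, ?_⟩
  rw [lintegral_tsum fun n => (key n).1, tsum_congr fun n => (key n).2,
    ← lintegral_iUnion (fun n => mM.inter (A1 n)) fun i j k =>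
      (A2 k).mono inter_subset_right inter_subset_right, ← inter_iUnion, inter_eq_left.2 A3]

theorem measurable_nuW (hw : ContDiff ℝ ∞ w) : Measurable (nuW w) :=
  (contDiff_grad_top hw).continuous.measurable.norm.inv.smul
    (contDiff_grad_top hw).continuous.measurable

theorem measurable_foc (hw : ContDiff ℝ ∞ w) : Measurable (foc w) :=
  measurable_fst.add (measurable_snd.smul ((measurable_nuW hw).comp measurable_fst))

theorem continuousOn_Jf (h : LocDef M U w) : ContinuousOn (Jf w) (U ×ˢ univ) := fun _ hq =>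
  (ContinuousLinearMap.continuous_det.continuousAt.comp (continuousAt_const.add
    (continuousAt_snd.smul ((contDiffAt_AW h.smooth (h.ne _ hq.1)).continuousAt.comp
      continuousAt_fst)))).continuousWithinAt

theorem meas_Jf (h : LocDef M U w) {T : Set ℝ} (hT : MeasurableSet T) :
    MeasurableSet (U ×ˢ univ ∩ Jf w ⁻¹' T) :=
  meas_pre (h.isOpen.prod isOpen_univ).measurableSet (continuousOn_Jf h) hT

/-- the distance function from `c` is a Morse function with distinct critical values -/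
structure Gen (M : Set E3) (w : E3 → ℝ) (c : E3) : Prop where
  nd : ∀ q : E3 × ℝ, q.1 ∈ M → foc w q = c → Jf w q ≠ 0
  inj : ∀ q q' : E3 × ℝ, q.1 ∈ M → q'.1 ∈ M → foc w q = c → foc w q' = c →
    ‖q.1 - c‖ ^ 2 = ‖q'.1 - c‖ ^ 2 → q.1 = q'.1

/-- **Almost every centre is generic.** -/
theorem ae_gen (h : LocDef M U w) (hM : M ⊆ U) : ∀ᵐ c, Gen M w c := by
  have h1 : ∀ᵐ c, ∀ q : E3 × ℝ, q.1 ∈ M → foc w q = c → Jf w q ≠ 0 := by
    obtain ⟨k1, k2⟩ := focal_area h hM (meas_Jf h (measurableSet_singleton 0))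
    have z : ∀ q, (U ×ˢ univ ∩ Jf w ⁻¹' {0}).indicator (fun q => ENNReal.ofReal |Jf w q|) q = 0 :=
      fun q => indicator_apply_eq_zero.2 fun l => by simp [show Jf w q = 0 from l.2]
    simp only [z, lintegral_zero, lintegral_eq_zero_iff' k1] at k2
    filter_upwards [k2] with c hc q q1 q2 q3
    simp only [cnt, Pi.zero_apply, ENat.toENNReal_eq_zero, encard_eq_zero] at hc
    exact hc.le (show q ∈ _ from ⟨⟨⟨hM q1, trivial⟩, q3⟩, q1, q2⟩)
  choose! N N1 g hg using fun (q : E3 × ℝ) (hq : q ∈ {q : E3 × ℝ | q.1 ∈ M ∧ Jf w q ≠ 0}) =>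
    branch h (hM hq.1) hq.2
  obtain ⟨s, s1, s2, s3⟩ := TopologicalSpace.countable_cover_nhdsWithin (f := N)
    fun q hq => mem_nhdsWithin_of_mem_nhds (N1 q hq)
  have h2 : ∀ᵐ c, ∀ a ∈ s, ∀ b ∈ s, ∀ q ∈ N a, ∀ q' ∈ N b, q.1 ∈ M → q'.1 ∈ M → foc w q = c →
      foc w q' = c → ‖q.1 - c‖ ^ 2 = ‖q'.1 - c‖ ^ 2 → q.1 = q'.1 := by
    refine (ae_ball_iff s2).2 fun a ha => (ae_ball_iff s2).2 fun b hb => ?_
    refine null_zero volume (h := fun c => g a c - g b c) fun c hc => ?_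
    simp only [mem_compl_iff, mem_ofPred_eq, not_forall] at hc
    obtain ⟨q, q1, q', q1', q2, q2', q3, q3', e, ne⟩ := hc
    obtain ⟨a1, a2⟩ := hg a (s1 ha) q q1 q2
    obtain ⟨b1, b2⟩ := hg b (s1 hb) q' q1' q2'
    rw [q3] at a1 a2
    rw [q3'] at b1 b2
    refine ⟨by rw [a1, b1, e, sub_self], _, a2.fun_sub b2, fun k => ne ?_⟩
    have := congrArg (fun L : E3 →L[ℝ] ℝ => L (q'.1 - q.1)) k
    simp only [sub_apply, smul_apply, innerSL_apply_apply, smul_eq_mul, ← mul_sub,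
      ← inner_sub_left, sub_sub_sub_cancel_left, zero_apply, mul_eq_zero, inner_self_eq_zero] at this
    exact (sub_eq_zero.1 (this.resolve_left two_ne_zero)).symm
  filter_upwards [h1, h2] with c c1 c2
  refine ⟨c1, fun q q' q1 q1' q2 q2' => ?_⟩
  obtain ⟨a, ha, k⟩ := mem_iUnion₂.1 (s3 (show q ∈ _ from ⟨q1, c1 q q1 q2⟩))
  obtain ⟨b, hb, k'⟩ := mem_iUnion₂.1 (s3 (show q' ∈ _ from ⟨q1', c1 q' q1' q2'⟩))
  exact c2 a ha b hb q k q' k' q1 q1' q2 q2'

end Vale.Agent.P218N.GB
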