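import Mathlib.Topology.Instances.AddCircle.Real
import Mathlib.Topology.Connected.LocallyConnected
import Mathlib.Topology.Order.IntermediateValue
import Mathlib.Topology.Order.Compact
import Mathlib.Topology.ContinuousMap.Basic
import Mathlib.Algebra.BigOperators.Fin
import Mathlib.Topology.Algebra.Support
import Mathlib.Data.Prod.Lex
import Mathlib.SetTheory.Cardinal.Order

/-!
# P218N, block GB: counting the levels at which the thin lower band is cut
-/

open Filter Topology Set

set_option linter.unusedSectionVars false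

noncomputable section

namespace Vale.Agent.P218N.GB

variable {X : Type*} [TopologicalSpace X]

/-- among more than `b` maps to the circle there is a nontrivial combination with a real lift -/
def Rank (X : Type*) [TopologicalSpace X] (b : ℕ) : Prop :=
  ∀ (ι : Type) [Fintype ι] (u : ι → C(X, UnitAddCircle)), b < Fintype.card ι →
    ∃ m : ι → ℤ, m ≠ 0 ∧ ∃ w : C(X, ℝ), ∀ x, (w x : UnitAddCircle) = ∑ i, m i • u i x

theorem Rank.homeo {Y : Type*} [TopologicalSpace Y] {b : ℕ} (h : Rank X b) (e : Y ≃ₜ X) :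
    Rank Y b := fun ι _ u hb => by
  obtain ⟨m, h1, w, h2⟩ := h ι (fun i => (u i).comp (e.symm : C(X, Y))) hb
  exact ⟨m, h1, w.comp (e : C(Y, X)), fun y => by simpa using h2 (e y)⟩

/-- among more than `b` compactly supported maps to the circle there is a nontrivial combination
with a real lift -/
def RankC (X : Type*) [TopologicalSpace X] (b : ℕ) : Prop :=
  ∀ (ι : Type) [Fintype ι] (u : ι → C(X, UnitAddCircle)), (∀ i, HasCompactSupport (u i)) →
    b < Fintype.card ι →
    ∃ m : ι → ℤ, m ≠ 0 ∧ ∃ w : C(X, ℝ), ∀ x, (w x : UnitAddCircle) = ∑ i, m i • u i x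

theorem Rank.rankC {b : ℕ} (h : Rank X b) : RankC X b := fun ι _ u _ => h ι u

theorem RankC.mono {a b : ℕ} (h : RankC X a) (hab : a ≤ b) : RankC X b :=
  fun ι _ u hu hb => h ι u hu (hab.trans_lt hb)

theorem RankC.homeo {Y : Type*} [TopologicalSpace Y] {b : ℕ} (h : RankC X b) (e : Y ≃ₜ X) :
    RankC Y b := fun ι _ u hu hb => by
  obtain ⟨m, h1, w, h2⟩ := h ι (fun i => (u i).comp (e.symm : C(X, Y)))
    (fun i => (hu i).comp_homeomorph e.symm) hb
  exact ⟨m, h1, w.comp (e : C(Y, X)), fun y => by simpa using h2 (e y)⟩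

theorem RankC.opens [T2Space X] {b : ℕ} (h : RankC X b) {U : Set X} (hU : IsOpen U) :
    RankC U b := fun ι _ u hu hb => by
  obtain ⟨m, h1, w, h2⟩ := h ι
    (fun i => ⟨_, HasCompactSupport.continuous_extend_zero hU (u i).continuous (hu i)⟩)
    (fun i => (hu i).extend_zero continuous_subtype_val) hb
  refine ⟨m, h1, w.comp ⟨_, continuous_subtype_val⟩, fun y => (h2 y).trans ?_⟩
  simp

/-- data of a cut of the band below the level `s` -/
structure CutD (f : X → ℝ) (s ε : ℝ) (C C' N : Set X) (q q' : X) : Prop where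
  pos : 0 < ε
  o : IsOpen C
  o' : IsOpen C'
  dj : Disjoint C C'
  cov : f ⁻¹' Ioo (s - ε) s ⊆ C ∪ C'
  con : IsPreconnected N
  lev : N ⊆ f ⁻¹' Icc (s - ε / 3) s
  hq : q ∈ N ∧ q ∈ C ∧ f q < s
  hq' : q' ∈ N ∧ q' ∈ C' ∧ f q' < s

/-- thin bands below the level `s` are cut in two parts which are joined at the level `s` -/
def Cut (f : X → ℝ) (s : ℝ) : Prop :=
  ∀ δ > 0, ∃ ε < δ, ∃ C C' N q q', CutD f s ε C C' N q q'

/-- a continuous function with integer values on a preconnected set is constant there -/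
theorem int_const {s : Set X} (hs : IsPreconnected s) {g : X → ℝ} (hg : ContinuousOn g s)
    (h : ∀ x ∈ s, ((g x : ℝ) : UnitAddCircle) = 0) {x y : X} (hx : x ∈ s) (hy : y ∈ s) :
    g x = g y := by
  have key : ∀ x ∈ s, ∀ y ∈ s, ¬ g x < g y := fun x hx y hy r => by
    obtain ⟨a, ha⟩ := (AddCircle.coe_eq_zero_iff 1).1 (h x hx)
    obtain ⟨b, hb⟩ := (AddCircle.coe_eq_zero_iff 1).1 (h y hy)
    simp only [zsmul_eq_mul, mul_one] at ha hb
    have hab : (a : ℝ) + 1 ≤ b := by exact_mod_cast Int.add_one_le_of_lt (by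
      rw [← ha, ← hb] at r; exact_mod_cast r)
    obtain ⟨z, hz, e⟩ := hs.intermediate_value hx hy hg
      (show (a : ℝ) + 1 / 2 ∈ Icc (g x) (g y) from ⟨by linarith, by linarith⟩)
    obtain ⟨c, hc⟩ := (AddCircle.coe_eq_zero_iff 1).1 (h z hz)
    simp only [zsmul_eq_mul, mul_one] at hc
    have : (2 * c : ℤ) = 2 * a + 1 := by
      have : (2 * c : ℝ) = 2 * a + 1 := by linarith
      exact_mod_cast this
    omega
  exact le_antisymm (not_lt.1 (key y hy x hx)) (not_lt.1 (key x hx y hy))

namespace CutD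

variable {f : X → ℝ} {s ε : ℝ} {C C' N : Set X} {q q' : X}

/-- the real valued function of a cut -/
def fn (f : X → ℝ) (s ε : ℝ) (C : Set X) : X → ℝ :=
  C.indicator fun x => max 0 (min 1 ((f x - (s - 2 * ε / 3)) / (ε / 3)))

theorem fn_low (hε : 0 < ε) {x : X} (h : f x ≤ s - 2 * ε / 3) : fn f s ε C x = 0 :=
  indicator_apply_eq_zero.2 fun _ => max_eq_left (min_le_of_right_le
    (div_nonpos_of_nonpos_of_nonneg (by linarith) (by linarith)))

theorem fn_in (hε : 0 < ε) {x : X} (h : s - ε / 3 ≤ f x) (hx : x ∈ C) : fn f s ε C x = 1 := by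
  rw [fn, indicator_of_mem hx, min_eq_left ((one_le_div (by linarith)).2 (by linarith)),
    max_eq_right zero_le_one]

theorem fn_high (hε : 0 < ε) {x : X} (h : s - ε / 3 ≤ f x) :
    ((fn f s ε C x : ℝ) : UnitAddCircle) = 0 := by
  by_cases hx : x ∈ C
  · rw [fn_in hε h hx]
    exact AddCircle.coe_period 1
  · rw [fn, indicator_of_notMem hx, QuotientAddGroup.mk_zero]

theorem contAt (D : CutD f s ε C C' N q q') (hf : Continuous f) {x : X} (h : f x < s) :
    ContinuousAt (fn f s ε C) x := by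
  rcases lt_or_ge (f x) (s - 2 * ε / 3) with r | r
  · refine (continuousAt_const (y := (0 : ℝ))).congr ?_
    filter_upwards [hf.continuousAt.eventually_lt_const r] with y hy using (fn_low D.pos hy.le).symm
  rcases D.cov (show f x ∈ Ioo (s - ε) s from ⟨by linarith [D.pos], h⟩) with k | k
  · have : Continuous fun x => max 0 (min 1 ((f x - (s - 2 * ε / 3)) / (ε / 3))) := by fun_prop
    refine this.continuousAt.congr ?_
    filter_upwards [D.o.mem_nhds k] with y hy
    rw [fn, indicator_of_mem hy]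
  · refine (continuousAt_const (y := (0 : ℝ))).congr ?_
    filter_upwards [D.o'.mem_nhds k] with y hy using
      (indicator_of_notMem (disjoint_right.1 D.dj hy) _).symm

theorem cont (D : CutD f s ε C C' N q q') (hf : Continuous f) :
    Continuous fun x => ((fn f s ε C x : ℝ) : UnitAddCircle) := by
  refine continuous_iff_continuousAt.2 fun x => ?_
  rcases lt_or_ge (f x) s with r | r
  · exact (AddCircle.continuous_mk' 1).continuousAt.comp (D.contAt hf r)
  · refine (continuousAt_const (y := (0 : UnitAddCircle))).congr ?_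
    filter_upwards [hf.continuousAt.eventually_const_lt (show s - ε / 3 < f x by linarith [D.pos])]
      with y hy using (fn_high D.pos hy.le).symm

end CutD

/-- cuts whose two sides are joined below the level give independent maps to the circle -/
theorem cycles [T2Space X] {b : ℕ} (hb : RankC X b) {f : X → ℝ} (hf : Continuous f) (S : Finset ℝ)
    {ε : ℝ → ℝ} {C C' N : ℝ → Set X} {q q' : ℝ → X}
    (D : ∀ s ∈ S, CutD f s (ε s) (C s) (C' s) (N s) (q s) (q' s))
    (hK : ∀ s ∈ S, IsCompact (f ⁻¹' Icc (s - ε s) s))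
    (gap : ∀ s ∈ S, ∀ s' ∈ S, s < s' → s ≤ s' - ε s')
    (same : ∀ s ∈ S, q' s ∈ connectedComponentIn {x | f x < s} (q s)) : S.card ≤ b := by
  classical
  by_contra! hS
  obtain ⟨m, m0, w, hw⟩ := hb S (fun s => ⟨_, (D s s.2).cont hf⟩)
    (fun s => HasCompactSupport.intro (hK s s.2) fun x hx => by
      have p := (D s s.2).pos
      rcases not_and_or.1 hx with k | k
      · exact congrArg (fun t : ℝ => (t : UnitAddCircle))
          (CutD.fn_low p (by linarith [not_le.1 k]))
      · exact CutD.fn_high p (by linarith [not_le.1 k])) (by simpa using hS)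
  obtain ⟨i, hi, hmin⟩ := (Finset.univ.filter fun i => m i ≠ 0).exists_min_image
    (fun i : S => (i : ℝ)) (by
      obtain ⟨i, hi⟩ := Function.ne_iff.1 m0
      exact ⟨i, by simpa using hi⟩)
  have Di := D i i.2
  have key : ∀ x, f x ≤ i → ((w x - m i * CutD.fn f i (ε i) (C i) x : ℝ) : UnitAddCircle) = 0 := by
    intro x hx
    rw [AddCircle.coe_sub, hw, Finset.sum_eq_single i (fun j _ hj => ?_) (by simp), ← zsmul_eq_mul,
      AddCircle.coe_zsmul]
    · exact sub_self _
    by_cases r : m j = 0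
    · rw [r, zero_zsmul]
    have r1 : (i : ℝ) < j := (hmin j (by simpa using r)).lt_of_ne fun e => hj (Subtype.ext e.symm)
    have r2 := gap i i.2 j j.2 r1
    have : CutD.fn f j (ε j) (C j) x = 0 :=
      CutD.fn_low (D j j.2).pos (by linarith [(D j j.2).pos])
    simp [this]
  have e1 := int_const isPreconnected_connectedComponentIn
    (g := fun x => w x - m i * CutD.fn f i (ε i) (C i) x)
    (fun x hx => (w.continuous.continuousAt.sub (continuousAt_const.mul
      (Di.contAt hf (connectedComponentIn_subset {x | f x < i} _ hx)))).continuousWithinAt)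
    (fun x hx => key x (le_of_lt (connectedComponentIn_subset {x | f x < i} _ hx)))
    (mem_connectedComponentIn Di.hq.2.2) (same i i.2)
  have e2 := int_const Di.con w.continuous.continuousOn (fun x hx => by
    have := key x (Di.lev hx).2
    rwa [AddCircle.coe_sub, ← zsmul_eq_mul, AddCircle.coe_zsmul,
      CutD.fn_high Di.pos (Di.lev hx).1, smul_zero, sub_zero] at this) Di.hq.1 Di.hq'.1
  rw [CutD.fn_in Di.pos (Di.lev Di.hq.1).1 Di.hq.2.1, CutD.fn,
    indicator_of_notMem (disjoint_right.1 Di.dj Di.hq'.2.1), e2] at e1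
  exact (Finset.mem_filter.1 hi).2 (by exact_mod_cast (by linarith : (m i : ℝ) = 0))

variable [LocallyConnectedSpace X]

theorem closure_comp {f : X → ℝ} (hf : Continuous f) {s : ℝ} {x y : X}
    (hy : y ∈ closure (connectedComponentIn {x | f x < s} x)) (h : f y < s) :
    y ∈ connectedComponentIn {x | f x < s} x := by
  have o : IsOpen {x | f x < s} := isOpen_lt hf continuous_const
  obtain ⟨z, h1, h2⟩ := mem_closure_iff.1 hy _ (o.connectedComponentIn (x := y))
    (mem_connectedComponentIn h)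
  rw [connectedComponentIn_eq h2, ← connectedComponentIn_eq h1]
  exact mem_connectedComponentIn h

/-- every component of a sublevel set contains a lowest point of the truncated function -/
theorem exists_min {f : X → ℝ} (hf : Continuous f) {τ s : ℝ} (hK : IsCompact (f ⁻¹' Icc τ s))
    {x : X} (h : f x < s) : ∃ m ∈ connectedComponentIn {x | f x < s} x,
      ∀ y ∈ connectedComponentIn {x | f x < s} x, max (f m) τ ≤ max (f y) τ := by
  have hx : x ∈ connectedComponentIn {x | f x < s} x := mem_connectedComponentIn h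
  by_cases k : ∃ y ∈ connectedComponentIn {x | f x < s} x, f y ≤ τ
  · obtain ⟨y, hy, k⟩ := k
    exact ⟨y, hy, fun z _ => (max_eq_right k).trans_le (le_max_right _ _)⟩
  push Not at k
  obtain ⟨m, h1, h2⟩ := (hK.of_isClosed_subset isClosed_closure (closure_minimal
    (fun y hy => ⟨(k y hy).le, le_of_lt (connectedComponentIn_subset {x | f x < s} _ hy)⟩)
    (isClosed_Icc.preimage hf))).exists_isMinOn ⟨x, subset_closure hx⟩ hf.continuousOn
  exact ⟨m, closure_comp hf h1 ((h2 (subset_closure hx)).trans_lt h),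
    fun y hy => max_le_max_right _ (h2 (subset_closure hy))⟩

/-- an injective key with a least value on every component of the sublevel sets -/
theorem exists_key {f : X → ℝ} (hf : Continuous f) {τ σ : ℝ} (hK : IsCompact (f ⁻¹' Icc τ σ)) :
    ∃ lt : X → X → Prop, (∀ x y z, lt x y → ¬ lt z y → lt x z) ∧ (∀ x y, x ≠ y → lt x y ∨ lt y x) ∧
      (∀ x y, lt x y → max (f x) τ ≤ max (f y) τ) ∧ ∀ s ≤ σ, ∀ x, f x < s →
      ∃ m ∈ connectedComponentIn {x | f x < s} x, (τ < f m → IsLocalMin f m) ∧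
        ∀ y ∈ connectedComponentIn {x | f x < s} x, ¬ lt y m ∧ max (f m) τ ≤ max (f y) τ := by
  obtain ⟨_, _⟩ := exists_wellFoundedLT (α := X)
  refine ⟨fun x y => toLex (max (f x) τ, x) < toLex (max (f y) τ, y),
    fun x y z h1 h2 => h1.trans_le (not_lt.1 h2), fun x y h => lt_or_gt_of_ne fun e =>
      h (congrArg (fun z => (ofLex z).2) e), fun x y h => (Prod.Lex.toLex_lt_toLex'.1 h).1,
    fun s hs x hx => ?_⟩
  obtain ⟨m₀, h1, h2⟩ := exists_min hf (hK.of_isClosed_subset (isClosed_Icc.preimage hf)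
    (preimage_mono (Icc_subset_Icc_right hs))) hx
  obtain ⟨m, h3, h4⟩ := wellFounded_lt.has_min
    {y ∈ connectedComponentIn {x | f x < s} x | max (f y) τ = max (f m₀) τ} ⟨m₀, h1, rfl⟩
  refine ⟨m, h3.1, fun k => ?_, fun y hy => ⟨fun k => ?_, h3.2 ▸ h2 y hy⟩⟩
  · filter_upwards [(isOpen_lt hf continuous_const).connectedComponentIn.mem_nhds h3.1] with y hy
    have := h3.2 ▸ h2 y hy
    rw [max_eq_left k.le, le_max_iff] at this
    exact this.resolve_right k.not_ge
  · obtain ⟨k1, k2⟩ := Prod.Lex.toLex_lt_toLex'.1 k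
    have e := k1.antisymm (h3.2 ▸ h2 y hy)
    exact h4 y ⟨hy, e.trans h3.2⟩ (k2 e)

/-- **Counting of cut levels.** -/
theorem count [T2Space X] [Nonempty X] {b : ℕ} (hb : RankC X b) {f : X → ℝ} (hf : Continuous f)
    {τ σ : ℝ} (hK : IsCompact (f ⁻¹' Icc τ σ)) (S : Finset ℝ)
    (hS : ∀ s ∈ S, τ < s ∧ s < σ ∧ Cut f s) :
    ∃ S₀ ⊆ S, S.card ≤ S₀.card + b ∧ ∃ m e : ℝ → X, ∃ r : X → X,
      (∀ s ∈ S₀, f (m s) < s ∧ (τ < f (m s) → IsLocalMin f (m s)) ∧ (f (m s) ≤ τ → f (e s) ≤ τ) ∧
        e s ∉ connectedComponentIn {x | f x < s} (m s) ∧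
        e s ∈ connectedComponentIn {x | f x < σ} (m s)) ∧
      (∀ s ∈ S₀, ∀ s' ∈ S₀, s < s' → m s' ∉ connectedComponentIn {x | f x < s} (m s)) ∧
      ∀ z, f z < σ → r z ∈ connectedComponentIn {x | f x < σ} z ∧ f (r z) ≤ max (f z) τ ∧
        (τ < f (r z) → IsLocalMin f (r z)) ∧
        ∀ s ∈ S₀, r z ∉ connectedComponentIn {x | f x < s} (m s) := by
  classical
  obtain ⟨δ, hδ, gap, low⟩ : ∃ δ : ℝ, 0 < δ ∧ (∀ s ∈ S, ∀ s' ∈ S, s < s' → δ ≤ s' - s) ∧
      ∀ s ∈ S, δ ≤ s - τ := by
    have : ∀ᶠ δ in 𝓝 (0 : ℝ), (∀ s ∈ S, ∀ s' ∈ S, s < s' → δ ≤ s' - s) ∧ ∀ s ∈ S, δ ≤ s - τ :=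
      ((eventually_all_finset S).2 fun s _ => (eventually_all_finset S).2 fun s' _ =>
        eventually_imp_distrib_left.2 fun r => eventually_le_nhds (sub_pos.2 r)).and
        ((eventually_all_finset S).2 fun s hs => eventually_le_nhds (sub_pos.2 (hS s hs).1))
    exact (eventually_mem_nhdsWithin.and (this.filter_mono (nhdsWithin_le_nhds (s := Ioi 0)))).exists
  choose! ε hε C C' N q q' D using fun s hs => (hS s hs).2.2 δ hδ
  let P : ℝ → Prop := fun s => q' s ∈ connectedComponentIn {x | f x < s} (q s)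
  have h1 := cycles hb hf (S.filter P) (fun s hs => D s (Finset.mem_filter.1 hs).1)
    (fun s hs => hK.of_isClosed_subset (isClosed_Icc.preimage hf) (preimage_mono (Icc_subset_Icc
      (by linarith [low s (Finset.mem_filter.1 hs).1, hε s (Finset.mem_filter.1 hs).1])
      (hS s (Finset.mem_filter.1 hs).1).2.1.le)))
    (fun s hs s' hs' r => by
      linarith [gap s (Finset.mem_filter.1 hs).1 s' (Finset.mem_filter.1 hs').1 r,
        hε s' (Finset.mem_filter.1 hs').1]) fun s hs => (Finset.mem_filter.1 hs).2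
  obtain ⟨lt, l1, l2, l3, l4⟩ := exists_key hf hK
  have young : ∀ s ∈ S.filter fun s => ¬ P s, ∃ m e, f m < s ∧ (τ < f m → IsLocalMin f m) ∧
      (∀ y ∈ connectedComponentIn {x | f x < s} m, ¬ lt y m) ∧ lt e m ∧
      e ∉ connectedComponentIn {x | f x < s} m ∧
      ∀ s' > s, e ∈ connectedComponentIn {x | f x < s'} m := by
    intro s hs
    obtain ⟨hs, ne⟩ := Finset.mem_filter.1 hs
    have d := D s hs
    have key : ∀ {q q' m m' : X}, q ∈ N s ∧ f q < s → q' ∈ N s ∧ f q' < s →
        q' ∉ connectedComponentIn {x | f x < s} q → m ∈ connectedComponentIn {x | f x < s} q →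
        m' ∈ connectedComponentIn {x | f x < s} q' → m' ∉ connectedComponentIn {x | f x < s} m ∧
          ∀ s' > s, m' ∈ connectedComponentIn {x | f x < s'} m := by
      intro q q' m m' hq hq' ne hm hm'
      refine ⟨fun k => ne ?_, fun s' hs' => ?_⟩
      · rw [connectedComponentIn_eq hm, connectedComponentIn_eq k, ← connectedComponentIn_eq hm']
        exact mem_connectedComponentIn hq'.2
      · refine ((isPreconnected_connectedComponentIn.union q (mem_connectedComponentIn hq.2) hq.1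
          d.con).union q' (.inr hq'.1) (mem_connectedComponentIn hq'.2)
          (isPreconnected_connectedComponentIn (F := {x | f x < s}))).subset_connectedComponentIn
          (.inl (.inl hm)) ?_ (.inr hm')
        rintro x ((hx | hx) | hx)
        · exact (connectedComponentIn_subset {x | f x < s} _ hx).trans hs'
        · exact (d.lev hx).2.trans_lt hs'
        · exact (connectedComponentIn_subset {x | f x < s} _ hx).trans hs'
    obtain ⟨m, h1, h2, h3⟩ := l4 s (hS s hs).2.1.le _ d.hq.2.2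
    obtain ⟨m', h1', h2', h3'⟩ := l4 s (hS s hs).2.1.le _ d.hq'.2.2
    have k := key ⟨d.hq.1, d.hq.2.2⟩ ⟨d.hq'.1, d.hq'.2.2⟩ ne h1 h1'
    have k' := key ⟨d.hq'.1, d.hq'.2.2⟩ ⟨d.hq.1, d.hq.2.2⟩
      (fun k => ne (show q' s ∈ _ from
        connectedComponentIn_eq k ▸ mem_connectedComponentIn d.hq'.2.2)) h1' h1
    have a := connectedComponentIn_subset {x | f x < s} _ h1
    rcases l2 m m' (fun e => k.1 (e ▸ mem_connectedComponentIn a)) with r | r
    · exact ⟨m', m, connectedComponentIn_subset {x | f x < s} _ h1', h2',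
        fun y hy => (h3' y (connectedComponentIn_eq h1' ▸ hy)).1, r, k'⟩
    · exact ⟨m, m', a, h2, fun y hy => (h3 y (connectedComponentIn_eq h1 ▸ hy)).1, r, k⟩
  choose! m e m1 m2 m3 m4 m5 m6 using young
  choose! r r1 r2 r3 using l4 σ le_rfl
  have old : ∀ s ∈ S.filter fun s => ¬ P s, ∀ s' > s, ∀ y,
      (∀ z ∈ connectedComponentIn {x | f x < s'} y, ¬ lt z y) →
      y ∉ connectedComponentIn {x | f x < s} (m s) := fun s hs s' r y hy k => by
    have := connectedComponentIn_mono (m s) (F := {x | f x < s}) (G := {x | f x < s'})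
      (fun x hx => lt_trans hx r) k
    exact hy _ (connectedComponentIn_eq this ▸ m6 s hs s' r) (l1 _ _ _ (m4 s hs) (m3 s hs y k))
  refine ⟨_, Finset.filter_subset _ _, ?_, m, e, r, fun s hs => ⟨m1 s hs, m2 s hs, fun k => ?_,
    m5 s hs, m6 s hs σ (hS s (Finset.mem_filter.1 hs).1).2.1⟩,
    fun s hs s' hs' r => old s hs s' r _ (m3 s' hs'), fun z hz => ⟨r1 z hz,
      (le_max_left _ _).trans (r3 z hz z (mem_connectedComponentIn hz)).2, r2 z hz,
      fun s hs => old s hs σ (hS s (Finset.mem_filter.1 hs).1).2.1 _ fun y hy =>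
        (r3 z hz y (connectedComponentIn_eq (r1 z hz) ▸ hy)).1⟩⟩
  · have := S.card_filter_add_card_filter_not P
    omega
  · exact (le_max_left _ _).trans ((l3 _ _ (m4 s hs)).trans_eq (max_eq_right k))

/-- a component of a sublevel set reaches all intermediate levels -/
theorem exists_mid {f : X → ℝ} (hf : Continuous f) {τ ρ : ℝ} (h : τ < ρ) {x p : X} (hx : f x ≤ τ)
    (hp : p ∈ connectedComponent x) (hρ : ρ ≤ f p) :
    ∃ y ∈ connectedComponentIn {x | f x < ρ} x, f y = τ := by
  have o : IsOpen {x | f x < ρ} := isOpen_lt hf continuous_const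
  have h0 : x ∈ connectedComponentIn {x | f x < ρ} x := mem_connectedComponentIn (hx.trans_lt h)
  by_cases k : ∀ y ∈ connectedComponentIn {x | f x < ρ} x, f y ≤ τ
  · have c : IsClopen (connectedComponentIn {x | f x < ρ} x) :=
      ⟨isClosed_of_closure_subset fun y hy => closure_comp hf hy
        (lt_of_le_of_lt (closure_minimal k (isClosed_le hf continuous_const) hy) h),
        o.connectedComponentIn⟩
    exact ((k p (c.connectedComponent_subset h0 hp)).trans_lt h).not_ge hρ |>.elim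
  · push Not at k
    obtain ⟨y, hy, k⟩ := k
    exact isPreconnected_connectedComponentIn.intermediate_value h0 hy hf.continuousOn ⟨hx, k.le⟩

theorem inj_of_sep {f : X → ℝ} {S₀ : Finset ℝ} {m : ℝ → X} (h2 : ∀ s ∈ S₀, f (m s) < s)
    (h3 : ∀ s ∈ S₀, ∀ s' ∈ S₀, s < s' → m s' ∉ connectedComponentIn {x | f x < s} (m s)) :
    InjOn m S₀ := fun s hs s' hs' e => by
  rcases lt_trichotomy s s' with r | r | r
  · exact (h3 s hs s' hs' r (e ▸ mem_connectedComponentIn (h2 s hs))).elim
  · exact r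
  · exact (h3 s' hs' s hs r (e ▸ mem_connectedComponentIn (e ▸ h2 s' hs'))).elim

/-- cut levels and components are counted by local minima -/
theorem count_min [T2Space X] [Nonempty X] {b : ℕ} (hb : RankC X b) {f : X → ℝ}
    (hf : Continuous f) {τ ρ σ : ℝ} (hτ : ∀ x, τ < f x) (hK : IsCompact (f ⁻¹' Icc τ σ))
    (h : ρ < σ) (S : Finset ℝ) (hS : ∀ s ∈ S, τ < s ∧ s ≤ ρ ∧ Cut f s) (Z : Finset X)
    (hZ : ∀ z ∈ Z, f z < ρ)
    (sep : ∀ z ∈ Z, ∀ z' ∈ Z, z' ∈ connectedComponentIn {x | f x < σ} z → z' = z) :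
    ∃ T : Finset X, S.card + Z.card ≤ T.card + b ∧ ∀ x ∈ T, IsLocalMin f x ∧ f x < ρ := by
  classical
  obtain ⟨S₀, h0, h1, m, e, r, h2, h3, h4⟩ := count hb hf hK S
    fun s hs => ⟨(hS s hs).1, (hS s hs).2.1.trans_lt h, (hS s hs).2.2⟩
  replace h4 := fun z (hz : z ∈ Z) => h4 z ((hZ z hz).trans h)
  refine ⟨S₀.image m ∪ Z.image r, ?_, fun x hx => ?_⟩
  · rw [Finset.card_union_of_disjoint (Finset.disjoint_left.2 fun x hx hx' => ?_),
      Finset.card_image_of_injOn (inj_of_sep (fun s hs => (h2 s hs).1) h3),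
      Finset.card_image_of_injOn fun z hz z' hz' e => ?_]
    · omega
    · refine sep z' hz' z hz ?_
      rw [connectedComponentIn_eq (h4 z' hz').1, ← e, ← connectedComponentIn_eq (h4 z hz).1]
      exact mem_connectedComponentIn ((hZ z hz).trans h)
    · obtain ⟨s, hs, rfl⟩ := Finset.mem_image.1 hx
      obtain ⟨z, hz, e⟩ := Finset.mem_image.1 hx'
      exact (h4 z hz).2.2.2 s hs (by rw [e]; exact mem_connectedComponentIn (h2 s hs).1)
  · rcases Finset.mem_union.1 hx with hx | hx
    · obtain ⟨s, hs, rfl⟩ := Finset.mem_image.1 hx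
      exact ⟨(h2 s hs).2.1 (hτ _), (h2 s hs).1.trans_le (hS s (h0 hs)).2.1⟩
    · obtain ⟨z, hz, rfl⟩ := Finset.mem_image.1 hx
      exact ⟨(h4 z hz).2.2.1 (hτ _), (h4 z hz).2.1.trans_lt
        (max_lt (hZ z hz) ((hτ z).trans (hZ z hz)))⟩

/-- if the parts of the components below `τ` are connected below `ρ`, then the cut levels above `ρ`
are counted by the local minima above `τ` -/
theorem count_con [T2Space X] [Nonempty X] {b : ℕ} (hb : RankC X b) {f : X → ℝ}
    (hf : Continuous f) {τ ρ σ : ℝ} (hK : IsCompact (f ⁻¹' Icc τ σ)) (S : Finset ℝ)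
    (hS : ∀ s ∈ S, τ < s ∧ s < σ ∧ Cut f s) (hρ : ∀ s ∈ S, ρ ≤ s)
    (con : ∀ x y, f x ≤ τ → f y ≤ τ → y ∈ connectedComponent x →
      y ∈ connectedComponentIn {x | f x < ρ} x) :
    ∃ T : Finset X, S.card ≤ T.card + b ∧ ∀ x ∈ T, IsLocalMin f x ∧ τ < f x := by
  classical
  obtain ⟨S₀, h0, h1, m, e, -, h2, h3, -⟩ := count hb hf hK S hS
  refine ⟨S₀.image m, ?_, fun x hx => ?_⟩
  · rwa [Finset.card_image_of_injOn (inj_of_sep (fun s hs => (h2 s hs).1) h3)]
  · obtain ⟨s, hs, rfl⟩ := Finset.mem_image.1 hx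
    obtain ⟨a1, a2, a3, a4, a5⟩ := h2 s hs
    have : τ < f (m s) := not_le.1 fun k => a4 (connectedComponentIn_mono _
      (fun x hx => lt_of_lt_of_le hx (hρ s (h0 hs))) (con _ _ k (a3 k)
        (isPreconnected_connectedComponentIn.subset_connectedComponent
          (mem_connectedComponentIn (F := {x | f x < σ}) (a1.trans (hS s (h0 hs)).2.1)) a5)))
    exact ⟨a2 this, this⟩

/-- cut levels above `ρ` are counted by local minima above `τ` and by components of `{f < ρ}` which
meet the level `τ` -/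
theorem count_out [T2Space X] [Nonempty X] {b : ℕ} (hb : RankC X b) {f : X → ℝ}
    (hf : Continuous f) {τ ρ σ : ℝ} (hK : IsCompact (f ⁻¹' Icc τ σ)) (S : Finset ℝ)
    (hS : ∀ s ∈ S, s < σ ∧ Cut f s) (h : τ < ρ) (hρ : ∀ s ∈ S, ρ ≤ s) :
    ∃ T Y : Finset X, S.card ≤ T.card + Y.card + b ∧ (∀ x ∈ T, IsLocalMin f x ∧ τ < f x) ∧
      (∀ y ∈ Y, f y = τ) ∧
      ∀ y ∈ Y, ∀ y' ∈ Y, y' ∈ connectedComponentIn {x | f x < ρ} y → y' = y := by
  classical
  obtain ⟨S₀, h0, h1, m, e, -, h2, h3, -⟩ := count hb hf hK S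
    fun s hs => ⟨h.trans_le (hρ s hs), hS s hs⟩
  have sep : ∀ s ∈ S₀, ∀ s' ∈ S₀, ∀ z, z ∈ connectedComponentIn {x | f x < s} (m s) →
      z ∈ connectedComponentIn {x | f x < s} (m s') → ¬ s < s' := fun s hs s' hs' z k k' r =>
    h3 s hs s' hs' r (by
      rw [connectedComponentIn_eq k, ← connectedComponentIn_eq k']
      exact mem_connectedComponentIn (connectedComponentIn_nonempty_iff.1 ⟨z, k'⟩))
  have top : ∀ s ∈ S₀, ∃ p ∈ connectedComponent (m s), s ≤ f p := fun s hs => by
    by_contra! k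
    exact (h2 s hs).2.2.2.1 (isPreconnected_connectedComponent.subset_connectedComponentIn
      mem_connectedComponent k (isPreconnected_connectedComponentIn.subset_connectedComponent
        (mem_connectedComponentIn (F := {x | f x < σ}) ((h2 s hs).1.trans (hS s (h0 hs)).1))
        (h2 s hs).2.2.2.2))
  choose! y y1 y2 using fun s (hs : s ∈ S₀.filter fun s => f (m s) ≤ τ) =>
    let ⟨p, p1, p2⟩ := top s (Finset.mem_filter.1 hs).1
    exists_mid hf h (Finset.mem_filter.1 hs).2 p1 ((hρ s (h0 (Finset.mem_filter.1 hs).1)).trans p2)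
  have mono : ∀ s ∈ S₀, ∀ x, connectedComponentIn {x | f x < ρ} x ⊆
      connectedComponentIn {x | f x < s} x := fun s hs x =>
    connectedComponentIn_mono x fun x hx => lt_of_lt_of_le hx (hρ s (h0 hs))
  have key : ∀ s ∈ S₀.filter fun s => f (m s) ≤ τ, ∀ s' ∈ S₀.filter fun s => f (m s) ≤ τ,
      y s' ∈ connectedComponentIn {x | f x < ρ} (y s) → s' = s := fun s hs s' hs' k => by
    have a := (Finset.mem_filter.1 hs).1
    have a' := (Finset.mem_filter.1 hs').1
    rw [← connectedComponentIn_eq (y1 s hs)] at k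
    exact le_antisymm (not_lt.1 (sep s a s' a' _ (mono s a _ k) (mono s a _ (y1 s' hs'))))
      (not_lt.1 (sep s' a' s a _ (mono s' a' _ (y1 s' hs')) (mono s' a' _ k)))
  refine ⟨(S₀.filter fun s => ¬ f (m s) ≤ τ).image m, (S₀.filter fun s => f (m s) ≤ τ).image y,
    ?_, fun x hx => ?_, fun x hx => ?_, fun x hx x' hx' k => ?_⟩
  · rw [Finset.card_image_of_injOn ((inj_of_sep (fun s hs => (h2 s hs).1) h3).mono
      (Finset.coe_subset.2 (Finset.filter_subset _ _))),
      Finset.card_image_of_injOn fun s hs s' hs' e => ?_]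
    · have := S₀.card_filter_add_card_filter_not fun s => f (m s) ≤ τ
      omega
    · exact key s' hs' s hs (e ▸ mem_connectedComponentIn ((y2 s hs).trans_lt h))
  · obtain ⟨s, hs, rfl⟩ := Finset.mem_image.1 hx
    have := not_le.1 (Finset.mem_filter.1 hs).2
    exact ⟨(h2 s (Finset.mem_filter.1 hs).1).2.1 this, this⟩
  · obtain ⟨s, hs, rfl⟩ := Finset.mem_image.1 hx
    exact y2 s hs
  · obtain ⟨s, hs, rfl⟩ := Finset.mem_image.1 hx
    obtain ⟨s', hs', rfl⟩ := Finset.mem_image.1 hx'
    rw [key s hs s' hs' k]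

end Vale.Agent.P218N.GB
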