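import Vale.Agent.P218GA.Jac
import Mathlib.MeasureTheory.Function.Jacobian
import Mathlib.MeasureTheory.Measure.Count
import Mathlib.Analysis.Calculus.FDeriv.Measurable
import Mathlib.Analysis.Calculus.InverseFunctionTheorem.FDeriv

/-!
# P218N, block GB: change of variables with multiplicity, and null level sets
-/

open MeasureTheory Filter Topology Set Metric
open scoped ENNReal NNReal

noncomputable section

namespace Vale.Agent.P218N.GB

theorem encard_iUnion {α : Type*} {s : ℕ → Set α} (h : Pairwise (Function.onFun Disjoint s)) :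
    ((⋃ n, s n).encard : ℝ≥0∞) = ∑' n, ((s n).encard : ℝ≥0∞) := by
  let : MeasurableSpace α := ⊤
  rw [← Measure.count_apply MeasurableSpace.measurableSet_top,
    measure_iUnion h fun _ => MeasurableSpace.measurableSet_top]
  exact tsum_congr fun n => Measure.count_apply MeasurableSpace.measurableSet_top

theorem encard_le_of_finset {α : Type*} {s : Set α} {k : ℕ∞}
    (h : ∀ F : Finset α, (F : Set α) ⊆ s → (F.card : ℕ∞) ≤ k) : s.encard ≤ k := by
  rcases s.finite_or_infinite with hs | hs
  · simpa [hs.encard_eq_coe_toFinset_card] using h hs.toFinset (by simp)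
  · induction k with
    | top => exact le_top
    | coe k =>
      obtain ⟨F, h1, h2⟩ := hs.exists_subset_card_eq (k + 1)
      have := h F h1
      rw [h2] at this
      norm_cast at this
      omega

variable {E : Type*} [NormedAddCommGroup E] [NormedSpace ℝ E] [FiniteDimensional ℝ E]
  [MeasurableSpace E] [BorelSpace E] (μ : Measure E) [μ.IsAddHaarMeasure]

/-- **Change of variables with multiplicity.** -/
theorem mult {f : E → E} {O s : Set E} (hO : IsOpen O) (hf : ContDiffOn ℝ 1 f O)
    (hs : MeasurableSet s) (hsO : s ⊆ O) :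
    AEMeasurable (fun c => ((s ∩ f ⁻¹' {c}).encard : ℝ≥0∞)) μ ∧
      ∫⁻ c, ((s ∩ f ⁻¹' {c}).encard : ℝ≥0∞) ∂μ =
        ∫⁻ x in s, ENNReal.ofReal |(fderiv ℝ f x).det| ∂μ := by
  have := FiniteDimensional.complete ℝ E
  have hd : ∀ x ∈ O, HasStrictFDerivAt f (fderiv ℝ f x) x := fun x hx =>
    (hf.contDiffAt (hO.mem_nhds hx)).hasStrictFDerivAt one_ne_zero
  have md : MeasurableSet {x | (fderiv ℝ f x).det = 0} :=
    (ContinuousLinearMap.continuous_det.measurable.comp (measurable_fderiv ℝ f))
      (measurableSet_singleton 0)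
  have loc : ∀ x ∈ s \ {x | (fderiv ℝ f x).det = 0}, ∃ t ∈ 𝓝 x, InjOn f t := fun x hx => by
    have sd : HasStrictFDerivAt f
      ((fderiv ℝ f x).toContinuousLinearEquivOfDetNeZero hx.2 : E →L[ℝ] E) x := hd x (hsO hx.1)
    exact ⟨_, sd.eventually_left_inverse, fun y hy z hz e => by
      rw [← show _ = y from hy, ← show _ = z from hz]
      exact congrArg _ e⟩
  choose! t t1 t2 using loc
  obtain ⟨A, A1, A2, A3, A4⟩ := P218GA.exists_partition t1
  let B : ℕ → Set E := fun n => (s \ {x | (fderiv ℝ f x).det = 0}) ∩ A n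
  have B1 : ∀ n, MeasurableSet (B n) := fun n => (hs.diff md).inter (A1 n)
  have B2 : Pairwise (Function.onFun Disjoint B) := fun i j h =>
    (A2 h).mono inter_subset_right inter_subset_right
  have B3 : ⋃ n, B n = s \ {x | (fderiv ℝ f x).det = 0} := by
    rw [← inter_iUnion, inter_eq_left.2 A3]
  have B4 : ∀ n, InjOn f (B n) := fun n => by
    rcases A4 n with k | ⟨x, hx, k⟩
    · simp [B, k]
    · exact (t2 x hx).mono (inter_subset_right.trans k)
  have B5 : ∀ n, B n ⊆ O := fun n x hx => hsO hx.1.1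
  have B6 : ∀ n, MeasurableSet (f '' B n) := fun n =>
    (B1 n).image_of_continuousOn_injOn (hf.continuousOn.mono (B5 n)) (B4 n)
  have null := addHaar_image_eq_zero_of_det_fderivWithin_eq_zero μ
    (s := s ∩ {x | (fderiv ℝ f x).det = 0}) (f := f) (f' := fderiv ℝ f)
    (fun x hx => (hd x (hsO hx.1)).hasFDerivAt.hasFDerivWithinAt) fun x hx => hx.2
  have ae : (fun c => ∑' n, (f '' B n).indicator (1 : E → ℝ≥0∞) c) =ᵐ[μ]
      fun c => ((s ∩ f ⁻¹' {c}).encard : ℝ≥0∞) := by
    filter_upwards [measure_eq_zero_iff_ae_notMem.1 null] with c hc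
    have e : s ∩ f ⁻¹' {c} = ⋃ n, B n ∩ f ⁻¹' {c} := by
      rw [← iUnion_inter, B3]
      exact Subset.antisymm (fun x hx => ⟨⟨hx.1, fun k => hc ⟨x, ⟨hx.1, k⟩, hx.2⟩⟩, hx.2⟩)
        fun x hx => ⟨hx.1.1, hx.2⟩
    rw [e, encard_iUnion fun i j h => (B2 h).mono inter_subset_left inter_subset_left]
    refine tsum_congr fun n => ?_
    by_cases k : c ∈ f '' B n
    · rw [indicator_of_mem k]
      obtain ⟨x, hx, rfl⟩ := k
      rw [show B n ∩ f ⁻¹' {f x} = {x} from Subset.antisymm (fun y hy => B4 n hy.1 hx hy.2)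
        (singleton_subset_iff.2 ⟨hx, rfl⟩)]
      simp
    · rw [indicator_of_notMem k, show B n ∩ f ⁻¹' {c} = ∅ from
        eq_empty_of_forall_notMem fun x hx => k ⟨x, hx.1, hx.2⟩]
      simp
  have m : ∀ n, Measurable ((f '' B n).indicator (1 : E → ℝ≥0∞)) := fun n =>
    measurable_one.indicator (B6 n)
  refine ⟨(Measurable.tsum m).aemeasurable.congr ae, ?_⟩
  rw [← lintegral_congr_ae ae, lintegral_tsum fun n => (m n).aemeasurable,
    ← lintegral_inter_add_sdiff _ s md, setLIntegral_congr_fun (hs.inter md)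
      (g := fun _ => 0) fun x hx => by simp [show (fderiv ℝ f x).det = 0 from hx.2],
    lintegral_zero, zero_add, ← B3, lintegral_iUnion B1 B2]
  refine tsum_congr fun n => ?_
  rw [lintegral_indicator_one (B6 n), lintegral_abs_det_fderiv_eq_addHaar_image μ (B1 n)
    (fun x hx => (hd x (B5 n hx)).hasFDerivAt.hasFDerivWithinAt) (B4 n)]

/-- regular zeros of a function form a null set -/
theorem null_zero [Nontrivial E] {h : E → ℝ} {s : Set E}
    (hs : ∀ c ∈ s, h c = 0 ∧ ∃ h' : E →L[ℝ] ℝ, HasFDerivAt h h' c ∧ h' ≠ 0) : μ s = 0 := by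
  have := FiniteDimensional.complete ℝ E
  obtain ⟨v, hv⟩ := exists_ne (0 : E)
  let s' := ({c | DifferentiableAt ℝ h c} ∩ closure {c | h c = 0}) \ {c | fderiv ℝ h c = 0}
  have m : MeasurableSet s' := ((measurableSet_of_differentiableAt ℝ h).inter
    isClosed_closure.measurableSet).diff (measurable_fderiv ℝ h (measurableSet_singleton 0))
  have z : ∀ c ∈ s', h c = 0 := fun c hc =>
    (hc.1.1.continuousAt.continuousWithinAt.mem_closure_image hc.1.2 |> closure_minimal
      (t := {0}) (image_subset_iff.2 fun _ k => k) isClosed_singleton)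
  have a : ApproximatesLinearOn (fun c => h c • v) (0 : E →L[ℝ] E) s' 0 := fun x hx y hy => by
    simp [z x hx, z y hy]
  have k := a.norm_fderiv_sub_le μ m (fun c => (fderiv ℝ h c).smulRight v) fun c hc =>
    (hc.1.1.hasFDerivAt.smul_const v).hasFDerivWithinAt
  refine measure_mono_null (t := s') (fun c hc => ?_) ?_
  · obtain ⟨h0, h', h1, h2⟩ := hs c hc
    exact ⟨⟨h1.differentiableAt, subset_closure h0⟩, fun e => h2 (h1.fderiv ▸ e)⟩
  · rw [← Measure.restrict_apply_univ, ← compl_empty, ← mem_ae_iff]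
    filter_upwards [k, ae_restrict_mem m] with c h1 h2
    refine h2.2 (ContinuousLinearMap.ext fun u => ?_)
    have := congrArg (fun L : E →L[ℝ] E => L u) (nnnorm_eq_zero.1 (nonpos_iff_eq_zero.1 h1))
    simpa [hv] using this

end Vale.Agent.P218N.GB
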