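import Vale.Agent.P218N.GB.SadGeo
import Vale.Agent.P218N.GB.Mult
import Vale.Agent.P218N.H.Basic

/-!
# P218N, block GB: the focal map `(x, t) ↦ x + t ν(x)` and the distance functions
-/

open MeasureTheory Filter Topology Set Metric
open scoped ENNReal NNReal RealInnerProductSpace ContDiff

noncomputable section

namespace Vale.Agent.P218N.GB

open Vale.Agent.P218.H313 Vale.Agent.P218N.H

/-- the focal map -/
def foc (w : E3 → ℝ) (p : E3 × ℝ) : E3 := p.1 + p.2 • nuW w p.1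

/-- the Jacobian of the focal map -/
def Jf (w : E3 → ℝ) (p : E3 × ℝ) : ℝ := (ContinuousLinearMap.id ℝ E3 + p.2 • AW w p.1).det

/-- the invariants of a symmetric operator which kills a unit vector -/
theorem frame {A : E3 →L[ℝ] E3} (hA : ∀ u v, ⟪A u, v⟫ = ⟪u, A v⟫) {n : E3} (hn : ‖n‖ = 1)
    (h0 : A n = 0) : ∃ (a b c : ℝ) (e : ℝ → ℝ → E3), tr A = a + c ∧
      tr (A.comp A) = a ^ 2 + 2 * b ^ 2 + c ^ 2 ∧
      (∀ t : ℝ, (ContinuousLinearMap.id ℝ E3 + t • A).det =
        (1 + t * a) * (1 + t * c) - (t * b) ^ 2) ∧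
      ∀ x y, ⟪n, e x y⟫ = 0 ∧ ‖e x y‖ ^ 2 = x ^ 2 + y ^ 2 ∧
        ⟪A (e x y), e x y⟫ = a * x ^ 2 + 2 * b * x * y + c * y ^ 2 := by
  obtain ⟨β, hβ⟩ := Orthonormal.exists_orthonormalBasis_extension_of_card_eq (𝕜 := ℝ) (E := E3)
    (ι := Fin 3) (by simp) (v := fun _ => n) (s := {0})
    (orthonormal_subsingleton_iff.2 fun _ => hn)
  obtain rfl : β 0 = n := hβ 0 rfl
  have o := orthonormal_iff_ite.1 β.orthonormal
  have z : ∀ v, ⟪β 0, A v⟫ = 0 := fun v => by rw [← hA, h0, inner_zero_left]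
  have s : ⟪β 2, A (β 1)⟫ = ⟪β 1, A (β 2)⟫ := by rw [← hA, real_inner_comm]
  refine ⟨⟪β 1, A (β 1)⟫, ⟪β 1, A (β 2)⟫, ⟪β 2, A (β 2)⟫, fun x y => x • β 1 + y • β 2, ?_, ?_,
    fun t => ?_, fun x y => ⟨by simp [inner_add_right, inner_smul_right, o], ?_, ?_⟩⟩
  · rw [tr, LinearMap.trace_eq_sum_inner _ β]
    simp [Fin.sum_univ_three, h0]
  · rw [tr_comp_self_eq hA β]
    simp only [← β.sum_sq_inner_right, Fin.sum_univ_three, h0, z, s, inner_zero_right]
    ring
  · rw [ContinuousLinearMap.det, ← LinearMap.det_toMatrix β.toBasis, Matrix.det_fin_three]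
    simp only [LinearMap.toMatrix_apply, OrthonormalBasis.coe_toBasis,
      OrthonormalBasis.coe_toBasis_repr_apply, OrthonormalBasis.repr_apply_apply,
      ContinuousLinearMap.coe_coe, add_apply, smul_apply, ContinuousLinearMap.id_apply,
      inner_add_right, inner_smul_right, o, h0, z, s, inner_zero_right]
    simp
    ring
  · rw [← real_inner_self_eq_norm_sq]
    simp only [inner_add_right, inner_smul_right, inner_add_left, real_inner_smul_left, o]
    simp
    ring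
  · rw [real_inner_comm]
    simp only [inner_add_right, inner_smul_right, inner_add_left, real_inner_smul_left, map_add,
      map_smul, s]
    ring

variable {M U : Set E3} {w : E3 → ℝ} {x c : E3} {t : ℝ}

theorem AW_nu (h : grad w x ≠ 0) : AW w x (nuW w x) = 0 := by
  rw [← AW_PW h, PW, perp_self (norm_nuW h), map_zero]

theorem Jf_eq (hw : ContDiff ℝ ∞ w) (h : grad w x ≠ 0) (t : ℝ) : Jf w (x, t) =
    1 + t * tr (AW w x) + t ^ 2 * ((tr (AW w x) ^ 2 - tr ((AW w x).comp (AW w x))) / 2) := by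
  obtain ⟨a, b, c, e, h1, h2, h3, -⟩ := frame (AW_symm hw x) (norm_nuW h) (AW_nu h)
  rw [Jf, h3, h1, h2]
  ring

theorem Jf_le (hw : ContDiff ℝ ∞ w) (h : grad w x ≠ 0) (t : ℝ) :
    Jf w (x, t) ≤ (1 + t * tr (AW w x) / 2) ^ 2 := by
  obtain ⟨a, b, c, e, h1, h2, h3, -⟩ := frame (AW_symm hw x) (norm_nuW h) (AW_nu h)
  rw [Jf, h3, h1]
  nlinarith [sq_nonneg (t * (a - c)), sq_nonneg (t * b)]

theorem exists_indef {p q r : ℝ} (h : p * q - r ^ 2 < 0) :
    ∃ x y x' y' : ℝ, p * x ^ 2 + 2 * r * x * y + q * y ^ 2 < 0 ∧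
      0 < p * x' ^ 2 + 2 * r * x' * y' + q * y' ^ 2 := by
  rcases lt_trichotomy p 0 with k | rfl | k
  · exact ⟨1, 0, -r, p, by linarith, by nlinarith [mul_pos_of_neg_of_neg k h]⟩
  · have : r ≠ 0 := by rintro rfl; simp at h
    have e : ∀ s : ℝ, 2 * r * (s / (2 * r)) = s := fun s => by field_simp
    exact ⟨(-1 - q) / (2 * r), 1, (1 - q) / (2 * r), 1, by rw [e]; linarith, by rw [e]; linarith⟩
  · exact ⟨-r, p, 1, 0, by nlinarith [mul_neg_of_pos_of_neg k h], by linarith⟩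

theorem toCS (h : LocDef M U w) (hM : M ⊆ U) : CS M w where
  sm := contDiff_two h.smooth
  loc x hx := (h.isOpen.eventually_mem (hM hx)).mono h.mem_iff
  reg x hx e := h.ne x (hM hx) (norm_eq_zero.1 (by rw [norm_grad, e, norm_zero]))

theorem contDiff_sq (c : E3) : ContDiff ℝ 2 fun y : E3 => ‖y - c‖ ^ 2 :=
  (contDiff_id.sub contDiff_const).norm_sq ℝ

theorem hasFDerivAt_sq (c x : E3) :
    HasFDerivAt (fun y : E3 => ‖y - c‖ ^ 2) ((2 : ℝ) • innerSL ℝ (x - c)) x :=
  ((hasFDerivAt_id x).sub_const c).norm_sq.congr_fderiv (by ext v; simp)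

theorem fderiv_eq_nu (w : E3 → ℝ) (x v : E3) : fderiv ℝ w x v = ‖grad w x‖ * ⟪nuW w x, v⟫ := by
  rw [← inner_grad, ← real_inner_smul_left, ← grad_eq_smul_nuW]

/-- focal pairs with negative Jacobian are saddles of the distance function -/
theorem isSaddle_of_neg (hw : ContDiff ℝ ∞ w) (h : grad w x ≠ 0) (hc : foc w (x, t) = c)
    (hJ : Jf w (x, t) < 0) : IsSaddle w (fun y => ‖y - c‖ ^ 2) x := by
  obtain ⟨a, b, d, e, -, -, h3, h4⟩ := frame (AW_symm hw x) (norm_nuW h) (AW_nu h)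
  rw [Jf, h3] at hJ
  obtain ⟨x₁, y₁, x₂, y₂, k1, k2⟩ := exists_indef hJ
  have g0 := norm_ne_zero_iff.2 h
  set l := -2 * t / ‖grad w x‖ with hl
  have D : (fderiv ℝ fun y => ‖y - c‖ ^ 2 - l * w y) =
      fun y => (2 : ℝ) • innerSL ℝ (y - c) - l • fderiv ℝ w y := funext fun y =>
    ((hasFDerivAt_sq c y).fun_sub
      ((hw.differentiable (by simp) y).hasFDerivAt.const_mul l)).fderiv
  have D2 := ((((innerSL ℝ : E3 →L[ℝ] E3 →L[ℝ] ℝ).hasFDerivAt.comp x
    ((hasFDerivAt_id x).sub_const c)).const_smul (2 : ℝ)).fun_sub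
    ((((contDiff_two hw).fderiv_right (m := 1) (by norm_num)).differentiable one_ne_zero
      x).hasFDerivAt.const_smul l)).fderiv
  have Q : ∀ u v, fderiv ℝ (fderiv ℝ fun y => ‖y - c‖ ^ 2 - l * w y) x (e u v) (e u v) =
      2 * ((1 + t * a) * u ^ 2 + 2 * (t * b) * u * v + (1 + t * d) * v ^ 2) := fun u v => by
    obtain ⟨q1, q2, q3⟩ := h4 u v
    have P : PW w x (e u v) = e u v := perp_of_inner q1
    rw [AW, smul_apply, real_inner_smul_left, ContinuousLinearMap.comp_apply, PW, inner_perp_left,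
      ← PW, ContinuousLinearMap.comp_apply, P, inner_fderiv_grad (contDiff_two hw),
      inv_mul_eq_iff_eq_mul₀ g0] at q3
    rw [D]
    erw [D2]
    have q4 : innerSL ℝ (e u v) (e u v) = u ^ 2 + v ^ 2 := by
      rw [innerSL_apply_apply, real_inner_self_eq_norm_sq, q2]
    simp only [sub_apply, smul_apply, q3, ContinuousLinearMap.comp_id, smul_eq_mul, hl]
    erw [q4]
    field_simp
    ring
  refine ⟨l, ?_, e x₁ y₁, e x₂ y₂, by rw [fderiv_eq_nu, (h4 _ _).1, mul_zero],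
    by rw [fderiv_eq_nu, (h4 _ _).1, mul_zero], by rw [Q]; linarith, by rw [Q]; linarith⟩
  ext v
  rw [(hasFDerivAt_sq c x).fderiv, ← hc]
  simp only [foc, smul_apply, innerSL_apply_apply, sub_add_cancel_left, inner_neg_left,
    real_inner_smul_left, fderiv_eq_nu, smul_eq_mul, hl]
  field_simp

theorem foc_of_perp (h : grad w x ≠ 0) (hc : ∀ v, ⟪grad w x, v⟫ = 0 → ⟪x - c, v⟫ = 0) :
    foc w (x, ⟪nuW w x, c - x⟫) = c := by
  have k := hc _ (inner_grad_PW h (x - c))
  rw [← PW_PW h, PW, ← inner_perp_left, ← PW, inner_self_eq_zero, PW, perp_apply] at k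
  rw [foc, ← neg_sub x c, inner_neg_right, neg_smul, ← sub_eq_zero.1 k]
  simp

theorem foc_of_fld (h : grad w x ≠ 0) (hc : fld w (fun y => ‖y - c‖ ^ 2) x = 0) :
    ∃ t, foc w (x, t) = c := by
  refine ⟨_, foc_of_perp h fun v hv => by_contra fun k => h (ext_inner_right ℝ fun u => ?_)⟩
  rw [inner_grad] at hv
  rw [inner_grad, inner_zero_left]
  have e : fderiv ℝ (fun y => ‖y - c‖ ^ 2) x v ≠ 0 := by
    simpa [(hasFDerivAt_sq c x).fderiv, inner_sub_left] using k
  unfold fld at hc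
  generalize fderiv ℝ (fun y => ‖y - c‖ ^ 2) x = b at hc e
  generalize fderiv ℝ w x = a at hc hv
  have e0 := congrArg (fun z : V3 => z 0) hc
  have e1 := congrArg (fun z : V3 => z 1) hc
  have e2 := congrArg (fun z : V3 => z 2) hc
  simp only [cr, Matrix.cons_val_zero, Matrix.cons_val_one, Matrix.cons_val, PiLp.zero_apply]
    at e0 e1 e2
  refine (mul_eq_zero.1 (?_ : b v * a u = 0)).resolve_left e
  rw [clm_eq] at hv
  rw [clm_eq b, clm_eq a]
  linear_combination (u 0 * b (bs 0) + u 1 * b (bs 1) + u 2 * b (bs 2)) * hv +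
    (u 1 * v 2 - u 2 * v 1) * e0 + (u 2 * v 0 - u 0 * v 2) * e1 + (u 0 * v 1 - u 1 * v 0) * e2

/-- local extrema of the distance function are focal pairs -/
theorem foc_of_extr (h : LocDef M U w) (hM : M ⊆ U) {p : M}
    (hp : IsLocalExtr (fun q : M => ‖(q : E3) - c‖ ^ 2) p) : ∃ t, foc w (p, t) = c := by
  classical
  refine ⟨_, foc_of_perp (h.ne _ (hM p.2)) fun v hv => ?_⟩
  obtain ⟨γ, g0, g1, -, g3⟩ := h.exists_curve (hM p.2) p.2 hv
  have T : Tendsto γ (𝓝 0) (map ((↑) : M → E3) (𝓝 p)) := by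
    rw [map_nhds_subtype_val]
    exact tendsto_nhdsWithin_iff.2 ⟨g0 ▸ g1.continuousAt.tendsto, g3⟩
  have E : IsLocalExtr (fun s => ‖γ s - c‖ ^ 2) 0 := by
    refine hp.imp (fun k => ?_) fun k => ?_
    · refine (T.eventually (p := fun y => ‖(p : E3) - c‖ ^ 2 ≤ ‖y - c‖ ^ 2)
        (eventually_map.2 k)).mono fun s hs => ?_
      simpa only [g0] using hs
    · refine (T.eventually (p := fun y => ‖y - c‖ ^ 2 ≤ ‖(p : E3) - c‖ ^ 2)
        (eventually_map.2 k)).mono fun s hs => ?_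
      simpa only [g0] using hs
  simpa [g0] using E.hasDerivAt_eq_zero (g1.sub_const c).norm_sq

theorem norm_foc (h : grad w x ≠ 0) (hc : foc w (x, t) = c) : ‖x - c‖ = |t| := by
  rw [← hc, foc]
  simp [norm_smul, norm_nuW h]

theorem foc_inj (h : grad w x ≠ 0) {s : ℝ} (hc : foc w (x, t) = foc w (x, s)) : t = s :=
  smul_left_injective ℝ (norm_ne_zero_iff.1 (by rw [norm_nuW h]; exact one_ne_zero))
    (add_left_cancel hc)

theorem contDiffAt_foc (hw : ContDiff ℝ ∞ w) {p : E3 × ℝ} (h : grad w p.1 ≠ 0) :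
    ContDiffAt ℝ ∞ (foc w) p :=
  contDiffAt_fst.add (contDiffAt_snd.smul ((contDiffAt_nuW hw h).comp p contDiffAt_fst))

/-- the local branch of critical points -/
theorem branch (h : LocDef M U w) {p : E3 × ℝ} (hp : p.1 ∈ U) (hJ : Jf w p ≠ 0) :
    ∃ N ∈ 𝓝 p, ∃ g : E3 → ℝ, ∀ q ∈ N, q.1 ∈ M → g (foc w q) = ‖q.1 - foc w q‖ ^ 2 ∧
      HasFDerivAt g ((2 : ℝ) • innerSL ℝ (foc w q - q.1)) (foc w q) := by
  have hw := h.smooth
  have g0 := h.ne _ hp
  let G : E3 × ℝ → E3 × ℝ := fun q => (foc w q, w q.1)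
  have dG := (hasFDerivAt_fst.add (hasFDerivAt_snd.smul (((contDiffAt_nuW hw g0).differentiableAt
    (by simp)).hasFDerivAt.comp p hasFDerivAt_fst))).prodMk
    ((hw.differentiable (by simp) p.1).hasFDerivAt.comp p hasFDerivAt_fst)
  have inj : Function.Injective (fderiv ℝ G p) := by
    rw [show fderiv ℝ G p = _ from dG.fderiv, injective_iff_map_eq_zero]
    rintro ⟨v, s⟩ hv
    simp only [ContinuousLinearMap.prod_apply, add_apply, smul_apply, Prod.mk_eq_zero,
      ContinuousLinearMap.comp_apply, ContinuousLinearMap.coe_fst', ContinuousLinearMap.coe_snd',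
      ContinuousLinearMap.smulRight_apply, Function.comp_apply, ← inner_grad] at hv
    have k : (ContinuousLinearMap.id ℝ E3 + p.2 • AW w p.1) (v + s • nuW w p.1) = 0 := by
      rw [← hv.1]
      simp only [add_apply, smul_apply, ContinuousLinearMap.id_apply, map_add, map_smul, AW_nu g0]
      rw [AW_eq hw g0, ContinuousLinearMap.comp_apply, PW_of_inner hv.2]
      simp only [smul_zero, add_zero]
      abel
    have k2 : v + s • nuW w p.1 = 0 :=
      (ContinuousLinearMap.toContinuousLinearEquivOfDetNeZero _ hJ).map_eq_zero_iff.1 k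
    have k3 := congrArg (fun z => ⟪grad w p.1, z⟫) k2
    simp only [inner_add_right, hv.2, inner_smul_right, real_inner_comm (nuW w p.1),
      inner_nuW_grad g0, zero_add, inner_zero_right, mul_eq_zero, norm_eq_zero, g0, or_false] at k3
    simpa [k3] using k2
  obtain ⟨φ, f1, f2, f3, f4, -⟩ := ift (G := G) (h.isOpen.prod isOpen_univ)
    (fun z hz => (contDiffAt_foc hw (h.ne _ hz.1)).prodMk (hw.contDiffAt.comp z contDiffAt_fst))
    (z0 := p) ⟨hp, trivial⟩ ⟨inj, (LinearMap.injective_iff_surjective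
      (f := (fderiv ℝ G p).toLinearMap)).1 inj⟩
  refine ⟨φ.source, φ.open_source.mem_nhds f1, fun c => ‖(φ.symm (c, 0)).1 - c‖ ^ 2,
    fun q hq hM => ?_⟩
  have e : (foc w q, 0) = φ q := by rw [f3]; simp only [G, h.zero (f2 hq).1 hM]
  have e' : φ.symm (foc w q, 0) = q := by rw [e, φ.left_inv hq]
  have m : (foc w q, (0 : ℝ)) ∈ φ.target := e ▸ φ.map_source hq
  obtain ⟨X, dX⟩ : ∃ X, HasFDerivAt (fun c => (φ.symm (c, 0)).1) X (foc w q) :=
    ⟨_, (((f4 _ m).differentiableAt (by simp)).hasFDerivAt.comp (foc w q)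
      (f := fun c => (c, (0 : ℝ))) (hasFDerivAt_prodMk_left _ _)).fst⟩
  have dw : HasFDerivAt (fun c => w (φ.symm (c, 0)).1) ((fderiv ℝ w q.1).comp X) (foc w q) :=
    HasFDerivAt.comp (foc w q) (by rw [e']; exact (hw.differentiable (by simp) _).hasFDerivAt) dX
  have z : (fderiv ℝ w q.1).comp X = 0 := dw.unique ((hasFDerivAt_const (0 : ℝ) _).congr_of_eventuallyEq
    ((((Continuous.prodMk_left (0 : ℝ)).tendsto _).eventually (φ.open_target.mem_nhds m)).mono
      fun c hc => congrArg Prod.snd ((f3 _).symm.trans (φ.right_inv hc))))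
  refine ⟨by simp only [e'], (dX.sub (hasFDerivAt_id _)).norm_sq.congr_fderiv ?_⟩
  ext v
  have k := congrArg (fun L : E3 →L[ℝ] ℝ => L v) z
  simp only [ContinuousLinearMap.comp_apply, fderiv_eq_nu, zero_apply, mul_eq_zero, norm_eq_zero,
    h.ne _ (f2 hq).1, false_or] at k
  simp only [e', Pi.sub_apply]
  simp [foc, k]

end Vale.Agent.P218N.GB
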