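import Vale.Agent.P218N.GB.Sad
import Mathlib.Analysis.InnerProductSpace.PiL2
import Mathlib.Analysis.ODE.PicardLindelof
import Mathlib.Analysis.ODE.Gronwall
import Mathlib.Analysis.ODE.ExistUnique
import Mathlib.Analysis.Calculus.InverseFunctionTheorem.ContDiff
import Mathlib.Analysis.Calculus.BumpFunction.InnerProduct
import Mathlib.Analysis.Calculus.ContDiff.RCLike
import Mathlib.Analysis.Calculus.ContDiff.WithLp
import Mathlib.Analysis.Calculus.FDeriv.Symmetric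

/-!
# P218N, block GB: the flow on a level curve of a surface in space
-/

open Filter Topology Set Metric
open scoped NNReal

noncomputable section

namespace Vale.Agent.P218N.GB

/-- Euclidean space -/
abbrev V3 := EuclideanSpace ℝ (Fin 3)

/-- the standard basis -/
def bs (i : Fin 3) : V3 := EuclideanSpace.single i 1

theorem clm_eq (a : V3 →L[ℝ] ℝ) (v : V3) :
    a v = v 0 * a (bs 0) + v 1 * a (bs 1) + v 2 * a (bs 2) := by
  have : v = v 0 • bs 0 + v 1 • bs 1 + v 2 • bs 2 := by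
    ext i
    fin_cases i <;> simp [bs]
  conv_lhs => rw [this]
  simp

/-- cross product of two covectors -/
def cr (a b : V3 →L[ℝ] ℝ) : V3 :=
  !₂[a (bs 1) * b (bs 2) - a (bs 2) * b (bs 1), a (bs 2) * b (bs 0) - a (bs 0) * b (bs 2),
    a (bs 0) * b (bs 1) - a (bs 1) * b (bs 0)]

theorem cr_left (a b : V3 →L[ℝ] ℝ) : a (cr a b) = 0 := by
  rw [clm_eq]
  simp [cr]
  ring

theorem cr_right (a b : V3 →L[ℝ] ℝ) : b (cr a b) = 0 := by
  rw [clm_eq]
  simp [cr]
  ring

theorem cr_smul_self (a : V3 →L[ℝ] ℝ) (l : ℝ) : cr a (l • a) = 0 := by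
  ext i
  fin_cases i <;> simp [cr] <;> ring

theorem cramer (a b n m : V3 →L[ℝ] ℝ) (v : V3) :
    a (cr b n) * m v = a v * b (cr n m) - b v * a (cr n m) + n v * m (cr a b) := by
  rw [clm_eq a (cr b n), clm_eq m v, clm_eq a v, clm_eq b v, clm_eq n v, clm_eq b (cr n m),
    clm_eq a (cr n m), clm_eq m (cr a b)]
  simp [cr]
  ring

theorem cr_swap (a b n : V3 →L[ℝ] ℝ) : b (cr a n) = -a (cr b n) := by
  rw [clm_eq a, clm_eq b]
  simp [cr]
  ring

theorem eq_zero_of_tri {a b n : V3 →L[ℝ] ℝ} (h : a (cr b n) ≠ 0) {v : V3} (h1 : a v = 0)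
    (h2 : b v = 0) (h3 : n v = 0) : v = 0 := by
  ext i
  have := cramer a b n (EuclideanSpace.proj i) v
  rw [h1, h2, h3] at this
  simpa [h] using this

theorem tri_ne_zero {a b n : V3 →L[ℝ] ℝ} {e₁ e₂ : V3} (hn : n ≠ 0) (a1 : a e₁ = 1)
    (b2 : b e₂ = 1) (n1 : n e₁ = 0) (n2 : n e₂ = 0) (b1 : b e₁ = 0) : a (cr b n) ≠ 0 := by
  intro h
  have k1 : ∀ m, b (cr n m) = 0 := fun m => by simpa [h, a1, b1, n1] using (cramer a b n m e₁).symm
  refine hn (ContinuousLinearMap.ext fun v => ?_)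
  have k2 : ∀ m : V3 →L[ℝ] ℝ, b (cr n m) = m (cr b n) := fun m => by
    rw [clm_eq b, clm_eq m]
    simp [cr]
    ring
  have k3 : ∀ i, cr b n i = 0 := fun i => (k2 (EuclideanSpace.proj i)).symm.trans (k1 _)
  have e0 := k3 0
  have e1 := k3 1
  have e2 := k3 2
  simp only [cr, Matrix.cons_val_zero, Matrix.cons_val_one, Matrix.cons_val] at e0 e1 e2
  rw [clm_eq] at b2 n2
  rw [clm_eq n v, zero_apply]
  linear_combination (-(v 0 * n (bs 0) + v 1 * n (bs 1) + v 2 * n (bs 2))) * b2 +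
    (v 0 * b (bs 0) + v 1 * b (bs 1) + v 2 * b (bs 2)) * n2 +
    (e₂ 1 * v 2 - e₂ 2 * v 1) * e0 + (e₂ 2 * v 0 - e₂ 0 * v 2) * e1 + (e₂ 0 * v 1 - e₂ 1 * v 0) * e2

theorem contDiff_cr {E : Type*} [NormedAddCommGroup E] [NormedSpace ℝ E] {n : WithTop ℕ∞}
    {a b : E → V3 →L[ℝ] ℝ} (ha : ContDiff ℝ n a) (hb : ContDiff ℝ n b) :
    ContDiff ℝ n fun x => cr (a x) (b x) := by
  have h1 : ∀ i, ContDiff ℝ n fun x => a x (bs i) := fun i => ha.clm_apply contDiff_const
  have h2 : ∀ i, ContDiff ℝ n fun x => b x (bs i) := fun i => hb.clm_apply contDiff_const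
  refine contDiff_euclidean.2 fun i => ?_
  fin_cases i <;> exact ((h1 _).mul (h2 _)).sub ((h1 _).mul (h2 _))

/-- the three functionals as one isomorphism -/
theorem exists_equiv {a b n : V3 →L[ℝ] ℝ} (h : a (cr b n) ≠ 0) :
    ∃ L : V3 ≃L[ℝ] (ℝ × ℝ) × ℝ, (L : V3 →L[ℝ] (ℝ × ℝ) × ℝ) = (a.prod b).prod n := by
  have inj : Function.Injective ((a.prod b).prod n).toLinearMap :=
    (injective_iff_map_eq_zero _).2 fun v hv => by
      simp only [ContinuousLinearMap.coe_coe, ContinuousLinearMap.prod_apply, Prod.mk_eq_zero] at hv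
      exact eq_zero_of_tri h hv.1.1 hv.1.2 hv.2
  exact ⟨(LinearEquiv.ofInjectiveOfFinrankEq _ inj (by simp)).toContinuousLinearEquiv,
    ContinuousLinearMap.ext fun v => rfl⟩

section ode

variable {E : Type*} [NormedAddCommGroup E] [NormedSpace ℝ E]

theorem curve_unique {Y : E → E} {K : ℝ≥0} (hK : LipschitzWith K Y) {f g : ℝ → E}
    (hf : ∀ t, HasDerivAt f (Y (f t)) t) (hg : ∀ t, HasDerivAt g (Y (g t)) t) {t₀ : ℝ}
    (h : f t₀ = g t₀) : f = g :=
  ODE_solution_unique_univ (v := fun _ => Y) (s := fun _ => univ) (K := K)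
    (fun _ => hK.lipschitzOnWith) (fun t => ⟨hf t, mem_univ _⟩) (fun t => ⟨hg t, mem_univ _⟩) h

theorem exists_curve [CompleteSpace E] {Y : E → E} {C K : ℝ≥0} (hC : ∀ x, ‖Y x‖ ≤ C)
    (hK : LipschitzWith K Y) (x₀ : E) :
    ∃ α : ℝ → E, α 0 = x₀ ∧ ∀ t, HasDerivAt α (Y (α t)) t := by
  have key : ∀ n : ℕ, ∃ α : ℝ → E, α 0 = x₀ ∧ ∀ t ∈ Ioo (-(n : ℝ)) n, HasDerivAt α (Y (α t)) t := by
    intro n
    have hPL : IsPicardLindelof (fun _ => Y) (tmin := -(n : ℝ)) (tmax := n)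
        ⟨0, by constructor <;> simp⟩ x₀ (C * n) 0 C K :=
      ⟨fun t ht => hK.lipschitzOnWith, fun y _ => continuousOn_const, fun t ht y _ => hC y, by simp⟩
    obtain ⟨α, h1, h2⟩ := hPL.exists_eq_forall_mem_Icc_hasDerivWithinAt₀
    exact ⟨α, h1, fun t ht => (h2 t (Ioo_subset_Icc_self ht)).hasDerivAt (Icc_mem_nhds ht.1 ht.2)⟩
  choose α h0 h1 using key
  have hag : ∀ m n : ℕ, m ≤ n → EqOn (α m) (α n) (Ioo (-(m : ℝ)) m) := fun m n hmn t ht => by
    have hmn' : (m : ℝ) ≤ n := by exact_mod_cast hmn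
    exact ODE_solution_unique_of_mem_Ioo (v := fun _ => Y) (s := fun _ => univ) (K := K) (t₀ := 0)
      (fun _ _ => hK.lipschitzOnWith) ⟨by linarith [ht.1, ht.2], by linarith [ht.1, ht.2]⟩
      (fun t ht => ⟨h1 m t ht, mem_univ _⟩)
      (fun t ht => ⟨h1 n t ⟨by linarith [ht.1], by linarith [ht.2]⟩, mem_univ _⟩)
      ((h0 m).trans (h0 n).symm) ht
  have hm : ∀ s : ℝ, s ∈ Ioo (-((⌈|s|⌉₊ + 1 : ℕ) : ℝ)) (⌈|s|⌉₊ + 1 : ℕ) := fun s => by
    rw [mem_Ioo, ← abs_lt]
    push_cast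
    linarith [Nat.le_ceil |s|]
  refine ⟨fun t => α (⌈|t|⌉₊ + 1) t, h0 _, fun t => ?_⟩
  have he : (fun s => α (⌈|s|⌉₊ + 1) s) =ᶠ[𝓝 t] α (⌈|t|⌉₊ + 2) := by
    filter_upwards [continuous_abs.continuousAt.eventually_lt_const (lt_add_one |t|)] with s hs
    refine hag _ _ (Nat.succ_le_succ (Nat.ceil_le.2 ?_)) (hm s)
    push_cast
    linarith [Nat.le_ceil |t|]
  show HasDerivAt _ (Y (α (⌈|t|⌉₊ + 1) t)) t
  rw [show α (⌈|t|⌉₊ + 1) t = α (⌈|t|⌉₊ + 2) t from he.self_of_nhds]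
  exact (h1 _ t ⟨by push_cast; linarith [(hm t).1, Nat.le_ceil |t|, neg_abs_le t],
    by push_cast; linarith [Nat.le_ceil |t|, le_abs_self t]⟩).congr_of_eventuallyEq he

end ode

variable {M : Set V3} {w f : V3 → ℝ}

/-- `M` is a surface which is near each of its points the regular zero set of `w` -/
structure CS (M : Set V3) (w : V3 → ℝ) : Prop where
  sm : ContDiff ℝ 2 w
  loc : ∀ x ∈ M, ∀ᶠ y in 𝓝 x, y ∈ M ↔ w y = 0
  reg : ∀ x ∈ M, fderiv ℝ w x ≠ 0

theorem CS.zero (H : CS M w) {x : V3} (hx : x ∈ M) : w x = 0 := (H.loc x hx).self_of_nhds.1 hx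

/-- the vector field tangent to the level sets of both functions -/
def fld (w f : V3 → ℝ) (x : V3) : V3 := cr (fderiv ℝ w x) (fderiv ℝ f x)

/-- the flow of `fld w f` on a compact level set -/
theorem CS.exists_flow (H : CS M w) (hf : ContDiff ℝ 2 f) {s : ℝ}
    (hc : IsCompact {x ∈ M | f x = s}) : ∃ γ : M → ℝ → M, ∀ q : M, f q = s → γ q 0 = q ∧
      (∀ t u, γ (γ q t) u = γ q (t + u)) ∧ (∀ t, f (γ q t) = s) ∧
      (fld w f q = 0 → ∀ t, γ q t = q) ∧
      ∀ t, HasDerivAt (fun u => (γ q u : V3)) (fld w f (γ q t)) t := by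
  classical
  have hw := H.sm
  obtain ⟨R, R0, hR⟩ := hc.isBounded.subset_ball_lt 0 0
  let χ : ContDiffBump (0 : V3) := ⟨R, R + 1, R0, lt_add_one R⟩
  have c1 : ContDiff ℝ 1 fun x => χ x • fld w f x := χ.contDiff.smul
    (contDiff_cr (hw.fderiv_right (by norm_num)) (hf.fderiv_right (by norm_num)))
  have c2 : HasCompactSupport fun x => χ x • fld w f x := χ.hasCompactSupport.smul_right
  obtain ⟨K, hK⟩ := c1.lipschitzWith_of_hasCompactSupport c2 one_ne_zero
  obtain ⟨C, hC⟩ := c1.continuous.bounded_above_of_compact_support c2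
  choose α a0 a1 using exists_curve (C := ⟨C, (norm_nonneg _).trans (hC 0)⟩) hC hK
  have cons : ∀ g : V3 → ℝ, ContDiff ℝ 2 g → (∀ x, fderiv ℝ g x (fld w f x) = 0) →
      ∀ x t, g (α x t) = g x := fun g hg h x t => by
    have d : ∀ t, HasDerivAt (fun t => g (α x t)) 0 t := fun t =>
      (((hg.differentiable (by norm_num)) _).hasFDerivAt.comp_hasDerivAt t (a1 x t)).congr_deriv
        (by rw [map_smul, h, smul_zero])
    rw [is_const_of_deriv_eq_zero (fun t => (d t).differentiableAt) (fun t => (d t).deriv) t 0, a0]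
  have lv : ∀ x t, f (α x t) = f x := cons f hf fun x => cr_right _ _
  have mem : ∀ q : M, f q = s → ∀ t, α q t ∈ M := fun q hq t => by
    have c : Continuous (α q) := continuous_iff_continuousAt.2 fun t => (a1 q t).continuousAt
    have : IsClopen (α q ⁻¹' {x ∈ M | f x = s}) := ⟨hc.isClosed.preimage c,
      isOpen_iff_mem_nhds.2 fun u hu => (c.continuousAt.eventually (H.loc _ hu.1)).mono fun v hv =>
        ⟨hv.2 ((cons w hw (fun x => cr_left _ _) q v).trans (H.zero q.2)), (lv q v).trans hq⟩⟩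
    exact ((this.eq_univ ⟨0, by rw [mem_preimage, a0]; exact ⟨q.2, hq⟩⟩).ge (mem_univ t)).1
  let γ : M → ℝ → M := fun q t => if h : α q t ∈ M then ⟨α q t, h⟩ else q
  have eγ : ∀ q : M, f q = s → ∀ t, (γ q t : V3) = α q t := fun q hq t => by
    simp only [γ, dif_pos (mem q hq t)]
  have fγ : ∀ q : M, f q = s → ∀ t, f (γ q t) = s := fun q hq t => by rw [eγ q hq, lv, hq]
  refine ⟨γ, fun q hq => ⟨Subtype.ext ((eγ q hq 0).trans (a0 q)), fun t u => Subtype.ext ?_,
    fγ q hq, fun h t => Subtype.ext ?_, fun t => ?_⟩⟩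
  · rw [eγ _ (fγ q hq t), eγ q hq, eγ q hq]
    exact congrFun (curve_unique hK (a1 _) (fun u => (a1 q (t + u)).comp_const_add t u) (t₀ := 0)
      (by simp [a0])) u
  · rw [eγ q hq]
    exact congrFun (curve_unique hK (a1 q) (g := fun _ => q)
      (fun u => by simpa [h] using hasDerivAt_const u (q : V3)) (a0 q)) t
  · have := a1 q t
    rw [χ.one_of_mem_closedBall (ball_subset_closedBall (hR ⟨mem q hq t, (lv q t).trans hq⟩)),
      one_smul] at this
    simpa only [eγ q hq] using this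

theorem CS.flw (H : CS M w) (hf : ContDiff ℝ 2 f) {p : M} {γ : M → ℝ → M}
    (hγ : ∀ q : M, f q = f p → γ q 0 = q ∧ (∀ t u, γ (γ q t) u = γ q (t + u)) ∧
      (∀ t, f (γ q t) = f p) ∧ (fld w f q = 0 → ∀ t, γ q t = q) ∧
      ∀ t, HasDerivAt (fun u => (γ q u : V3)) (fld w f (γ q t)) t) (h3 : fld w f p = 0)
    (reg : ∀ q ∈ lev (fun q : M => f q) p, fld w f q ≠ 0) :
    Flw (lev (fun q : M => f q) p) γ where
  mem q hq t := ⟨(hγ q hq.1).2.2.1 t, fun e => hq.2 (by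
    have := (hγ q hq.1).2.1 t (-t)
    rwa [e, (hγ p rfl).2.2.2.1 h3, add_neg_cancel, (hγ q hq.1).1, eq_comm] at this)⟩
  cont q hq :=
    (continuous_iff_continuousAt.2 fun t => ((hγ q hq.1).2.2.2.2 t).continuousAt).subtype_mk _
  zero q hq := (hγ q hq.1).1
  add q hq := (hγ q hq.1).2.1
  loc q hq δ hδ := by
    obtain ⟨h0, -, h2, -, h4⟩ := hγ q hq.1
    set ℓ : V3 →L[ℝ] ℝ := innerSL ℝ (fld w f q) with hℓ
    have l0 : 0 < ℓ (fld w f q) := real_inner_self_pos.2 (reg q hq)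
    obtain ⟨L, hL⟩ := exists_equiv (a := ℓ) l0.ne'
    have sd : HasStrictFDerivAt (fun x => ((ℓ x, w x), f x)) (L : V3 →L[ℝ] (ℝ × ℝ) × ℝ) q := by
      rw [hL]
      exact (ℓ.hasStrictFDerivAt.prodMk (H.sm.hasStrictFDerivAt (by norm_num))).prodMk
        (hf.hasStrictFDerivAt (by norm_num))
    obtain ⟨T, T1, T2⟩ : ∃ T ∈ 𝓝 (q : V3), InjOn (fun x => ((ℓ x, w x), f x)) T :=
      ⟨_, sd.eventually_left_inverse, fun x hx y hy e => by
        rw [← show _ = x from hx, ← show _ = y from hy]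
        exact congrArg _ e⟩
    have d : HasDerivAt (fun u => ℓ (γ q u)) (ℓ (fld w f q)) 0 := by
      exact (ℓ.hasFDerivAt.comp_hasDerivAt 0 (h4 0)).congr_deriv (by rw [h0])
    have cγ : Continuous fun u => (γ q u : V3) :=
      continuous_iff_continuousAt.2 fun t => (h4 t).continuousAt
    have ev : ∀ᶠ u in 𝓝 (0 : ℝ), (γ q u : V3) ∈ T ∧ |u| < δ :=
      (cγ.continuousAt.eventually (by simp only [h0]; exact T1)).and
        (continuous_abs.continuousAt.eventually_lt_const (by simpa using hδ))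
    obtain ⟨ε, ε0, hε⟩ := Metric.eventually_nhds_iff.1 ev
    obtain ⟨η, η0, hη⟩ := Metric.eventually_nhds_iff.1 (eventually_nhdsWithin_iff.1
      ((hasDerivAt_iff_tendsto_slope_zero.1 d).eventually_const_lt (half_lt_self l0)))
    set s := min ε η / 2 with hs
    have s0 : 0 < s := half_pos (lt_min ε0 η0)
    have s1 : s < ε := (half_lt_self (lt_min ε0 η0)).trans_le (min_le_left _ _)
    have s2 : s < η := (half_lt_self (lt_min ε0 η0)).trans_le (min_le_right _ _)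
    have k1 := hη (y := s) (by simpa [abs_of_pos s0] using s2) s0.ne'
    have k2 := hη (y := -s) (by simpa [abs_of_pos s0] using s2) (neg_ne_zero.2 s0.ne')
    simp only [zero_add, h0, smul_eq_mul] at k1 k2
    have m1 : ℓ q < ℓ (γ q s) := sub_pos.1 ((pos_iff_pos_of_mul_pos ((half_pos l0).trans k1)).1
      (inv_pos.2 s0))
    have m2 : ℓ (γ q (-s)) < ℓ q := sub_neg.1 ((neg_iff_neg_of_mul_pos ((half_pos l0).trans k2)).1
      (inv_lt_zero.2 (neg_neg_of_pos s0)))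
    have cl : Continuous fun z : M => ℓ z := ℓ.continuous.comp continuous_subtype_val
    filter_upwards [self_mem_nhdsWithin, nhdsWithin_le_nhds
      (continuous_subtype_val.continuousAt.eventually T1),
      nhdsWithin_le_nhds (cl.continuousAt.eventually (Icc_mem_nhds m2 m1))] with z z1 z2 z3
    obtain ⟨u, hu, e⟩ := intermediate_value_Icc (f := fun u => ℓ (γ q u)) (by linarith : -s ≤ s)
      (ℓ.continuous.comp cγ).continuousOn z3
    have k := hε (y := u) (by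
      rw [dist_zero_right, Real.norm_eq_abs]
      exact (abs_le.2 hu).trans_lt s1)
    refine ⟨u, abs_lt.1 k.2, Subtype.ext (T2 k.1 z2 ?_)⟩
    simp only [e, H.zero (γ q u).2, H.zero z.2, h2, show f z = f p from z1.1]

end Vale.Agent.P218N.GB
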