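import Vale.Agent.P218N.GB.Orbit
import Vale.Agent.P218N.GB.Count
import Mathlib.Topology.Separation.Regular

/-!
# P218N, block GB: a saddle cuts the thin band below or the thin band above its level
-/

open Filter Topology Set Metric

noncomputable section

namespace Vale.Agent.P218N.GB

variable {X : Type*} [TopologicalSpace X]

/-- the level set of `p`, without `p` -/
def lev (f : X → ℝ) (p : X) : Set X := {q | f q = f p ∧ q ≠ p}

/-- a chart around a saddle, adapted to the function `f` and to the flow `γ` on the level set -/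
structure Sad (f : X → ℝ) (p : X) (γ : X → ℝ → X) (U : Set X) (π : X → ℝ × ℝ) (φ : ℝ × ℝ → X)
    (r : ℝ) : Prop where
  pos : 0 < r
  opn : IsOpen U
  cπ : ContinuousOn π U
  cφ : ContinuousOn φ (ball 0 r)
  mπ : MapsTo π U (ball 0 r)
  mφ : MapsTo φ (ball 0 r) U
  left : ∀ q ∈ U, φ (π q) = q
  right : ∀ z ∈ ball 0 r, π (φ z) = z
  zero : φ 0 = p
  up : ∀ t, t ≠ 0 → |t| < r → f p < f (φ (t, t))
  down : ∀ t, t ≠ 0 → |t| < r → f (φ (t, -t)) < f p
  inj1 : ∀ x, x ≠ 0 → |x| < r → InjOn (fun y => f (φ (x, y))) {y | |y| ≤ |x|}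
  inj2 : ∀ y, y ≠ 0 → |y| < r → InjOn (fun x => f (φ (x, y))) {x | |x| ≤ |y|}
  der : ∀ q ∈ lev f p, ∀ t, γ q t ∈ U → ∃ α β : ℝ, HasDerivAt (fun u => (π (γ q u)).1) α t ∧
    HasDerivAt (fun u => (π (γ q u)).2) β t ∧
    (|(π (γ q t)).2| < |(π (γ q t)).1| → 0 < α * (π (γ q t)).1) ∧
    (|(π (γ q t)).1| < |(π (γ q t)).2| → β * (π (γ q t)).2 < 0)

theorem mem_sq {x y r : ℝ} : (x, y) ∈ ball (0 : ℝ × ℝ) r ↔ |x| < r ∧ |y| < r := by
  simp [Prod.norm_def]

namespace Sad

variable {f : X → ℝ} {p : X} {γ : X → ℝ → X} {U : Set X} {π : X → ℝ × ℝ} {φ : ℝ × ℝ → X} {r : ℝ}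

theorem neg (S : Sad f p γ U π φ r) : Sad f p γ U (fun q => -π q) (fun z => φ (-z)) r where
  pos := S.pos
  opn := S.opn
  cπ := S.cπ.neg
  cφ := S.cφ.comp continuous_neg.continuousOn fun z hz => by simpa using hz
  mπ q hq := by simpa using S.mπ hq
  mφ z hz := S.mφ (by simpa using hz)
  left q hq := by simpa using S.left q hq
  right z hz := by rw [S.right _ (by simpa using hz), neg_neg]
  zero := by simpa using S.zero
  up t h1 h2 := S.up (-t) (neg_ne_zero.2 h1) (by simpa using h2)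
  down t h1 h2 := S.down (-t) (neg_ne_zero.2 h1) (by simpa using h2)
  inj1 x h1 h2 y hy y' hy' e := neg_injective
    (S.inj1 (-x) (neg_ne_zero.2 h1) (by simpa using h2) (by simpa using hy) (by simpa using hy') e)
  inj2 x h1 h2 y hy y' hy' e := neg_injective
    (S.inj2 (-x) (neg_ne_zero.2 h1) (by simpa using h2) (by simpa using hy) (by simpa using hy') e)
  der q hq t h := by
    obtain ⟨α, β, h1, h2, h3⟩ := S.der q hq t h
    exact ⟨-α, -β, h1.neg, h2.neg, by simpa using h3⟩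

theorem swap (S : Sad f p γ U π φ r) :
    Sad f p (fun q t => γ q (-t)) U (fun q => (π q).swap) (fun z => φ z.swap) r where
  pos := S.pos
  opn := S.opn
  cπ := continuous_swap.comp_continuousOn S.cπ
  cφ := S.cφ.comp continuous_swap.continuousOn fun z hz => mem_sq.2 (mem_sq.1 hz).symm
  mπ q hq := mem_sq.2 (mem_sq.1 (S.mπ hq)).symm
  mφ z hz := S.mφ (mem_sq.2 (mem_sq.1 hz).symm)
  left q hq := S.left q hq
  right z hz := by rw [S.right z.swap (mem_sq.2 (mem_sq.1 hz).symm), Prod.swap_swap]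
  zero := S.zero
  up := S.up
  down t h1 h2 := by simpa using S.down (-t) (neg_ne_zero.2 h1) (by simpa using h2)
  inj1 := S.inj2
  inj2 := S.inj1
  der q hq t h := by
    obtain ⟨α, β, h1, h2, h3⟩ := S.der q hq (-t) h
    exact ⟨-β, -α, (h2.scomp t (hasDerivAt_neg t)).congr_deriv (by simp),
      (h1.scomp t (hasDerivAt_neg t)).congr_deriv (by simp), by simpa using h3.symm⟩

theorem flip (S : Sad f p γ U π φ r) :
    Sad (fun q => -f q) p γ U (fun q => ((π q).1, -(π q).2)) (fun z => φ (z.1, -z.2)) r where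
  pos := S.pos
  opn := S.opn
  cπ := S.cπ.fst.prodMk S.cπ.snd.neg
  cφ := S.cφ.comp (by fun_prop) fun z hz => mem_sq.2 (by simpa using mem_sq.1 hz)
  mπ q hq := mem_sq.2 (by simpa using mem_sq.1 (S.mπ hq))
  mφ z hz := S.mφ (mem_sq.2 (by simpa using mem_sq.1 hz))
  left q hq := by simpa using S.left q hq
  right z hz := by rw [S.right (z.1, -z.2) (mem_sq.2 (by simpa using mem_sq.1 hz)), neg_neg]
  zero := by
    show φ (0, -0) = p
    rw [neg_zero]
    exact S.zero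
  up t h1 h2 := neg_lt_neg (S.down t h1 h2)
  down t h1 h2 := neg_lt_neg (by simpa using S.up t h1 h2)
  inj1 x h1 h2 y hy y' hy' e := neg_injective
    (S.inj1 x h1 h2 (by simpa using hy) (by simpa using hy') (neg_injective e))
  inj2 y h1 h2 x hx x' hx' e :=
    S.inj2 (-y) (neg_ne_zero.2 h1) (by simpa using h2) (by simpa using hx) (by simpa using hx')
      (neg_injective e)
  der q hq t h := by
    obtain ⟨α, β, h1, h2, h3⟩ := S.der q ⟨neg_injective hq.1, hq.2⟩ t h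
    exact ⟨α, -β, h1, h2.neg, by simpa using h3⟩

/-- the arm in the direction of the first axis -/
def arm (f : X → ℝ) (p : X) (U : Set X) (π : X → ℝ × ℝ) : Set X :=
  {q | q ∈ lev f p ∧ q ∈ U ∧ |(π q).2| < (π q).1}

theorem mem_U (S : Sad f p γ U π φ r) : p ∈ U := S.zero ▸ S.mφ (mem_ball_self S.pos)

theorem π_zero (S : Sad f p γ U π φ r) : π p = 0 := S.zero ▸ S.right 0 (mem_ball_self S.pos)

theorem abs_ne (S : Sad f p γ U π φ r) {z : ℝ × ℝ} (hz : z ∈ ball (0 : ℝ × ℝ) r) (h0 : z ≠ 0)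
    (h : f (φ z) = f p) : |z.2| ≠ |z.1| := by
  obtain ⟨x, y⟩ := z
  intro e
  have x0 : x ≠ 0 := by
    rintro rfl
    exact h0 (by simpa using e)
  rcases abs_eq_abs.1 (show |y| = |x| from e) with rfl | rfl
  · exact (S.up _ x0 (mem_sq.1 hz).1).ne' h
  · exact (S.down _ x0 (mem_sq.1 hz).1).ne h

theorem isArm [T2Space X] (S : Sad f p γ U π φ r) (hf : Continuous f) :
    Arm (lev f p) γ p r (arm f p U π) fun q => (π q).1 where
  sub q hq := hq.1
  opn q hq := by
    have := (S.cπ.isOpen_inter_preimage S.opn (t := {z : ℝ × ℝ | |z.2| < z.1})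
      (isOpen_lt (by fun_prop) continuous_fst)).mem_nhds ⟨hq.2.1, hq.2.2⟩
    filter_upwards [self_mem_nhdsWithin, nhdsWithin_le_nhds this] with z h1 h2 using ⟨h1, h2⟩
  bij := by
    refine ⟨fun q hq => ⟨(abs_nonneg _).trans_lt hq.2.2,
      (le_abs_self _).trans_lt (mem_sq.1 (S.mπ hq.2.1)).1⟩, fun q hq q' hq' e => ?_, fun x hx => ?_⟩
    · have e' : (π q).1 = (π q').1 := e
      have := S.inj1 (π q).1 ((abs_nonneg _).trans_lt hq.2.2).ne' (mem_sq.1 (S.mπ hq.2.1)).1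
        (hq.2.2.le.trans (le_abs_self _)) (e' ▸ hq'.2.2.le.trans (le_abs_self _)) (by
          show f (φ (π q)) = f (φ ((π q).1, (π q').2))
          rw [e', S.left q hq.2.1, S.left q' hq'.2.1, hq.1.1, hq'.1.1])
      rw [← S.left q hq.2.1, ← S.left q' hq'.2.1, Prod.ext e' this]
    · have ax : |x| < r := by rw [abs_of_pos hx.1]; exact hx.2
      have hb : ∀ y ∈ Icc (-x) x, (x, y) ∈ ball (0 : ℝ × ℝ) r := fun y hy =>
        mem_sq.2 ⟨ax, (abs_le.2 hy).trans_lt hx.2⟩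
      obtain ⟨y, hy, e⟩ := intermediate_value_Ioo (f := fun y => f (φ (x, y)))
        (neg_le_self hx.1.le) (hf.comp_continuousOn (S.cφ.comp (by fun_prop) hb))
        ⟨S.down x hx.1.ne' ax, S.up x hx.1.ne' ax⟩
      have b := hb y (Ioo_subset_Icc_self hy)
      refine ⟨φ (x, y), ⟨⟨e, fun k => hx.1.ne' ?_⟩, S.mφ b, ?_⟩, by simp only [S.right _ b]⟩
      · have := S.right _ b
        rw [k, S.π_zero] at this
        exact (congrArg Prod.fst this).symm
      · rw [S.right _ b]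
        exact abs_lt.2 hy
  cl c hc := by
    have sub : ∀ z : ℝ × ℝ, |z.2| ≤ z.1 → z.1 ≤ c → z ∈ ball (0 : ℝ × ℝ) r := fun z h1 h2 =>
      mem_sq.2 ⟨by rw [abs_of_nonneg ((abs_nonneg _).trans h1)]; linarith, by linarith⟩
    have k1 : IsCompact {z : ℝ × ℝ | |z.2| ≤ z.1 ∧ z.1 ≤ c} :=
      (isCompact_closedBall 0 c).of_isClosed_subset ((isClosed_le (by fun_prop) continuous_fst).inter
        (isClosed_le continuous_fst continuous_const)) fun z hz => by
          rw [mem_closedBall_zero_iff, Prod.norm_def, max_le_iff, Real.norm_eq_abs,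
            Real.norm_eq_abs, abs_of_nonneg ((abs_nonneg _).trans hz.1)]
          exact ⟨hz.2, hz.1.trans hz.2⟩
    have k2 := ((k1.image_of_continuousOn (S.cφ.mono fun z hz => sub z hz.1 hz.2)).isClosed.inter
      (isClosed_eq hf (continuous_const (y := f p)))).union (isClosed_singleton (x := p))
    convert k2 using 1
    refine Subset.antisymm ?_ ?_
    · rintro q (⟨hq, h⟩ | hq)
      · exact .inl ⟨⟨π q, ⟨hq.2.2.le, h⟩, S.left q hq.2.1⟩, hq.1.1⟩
      · exact .inr hq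
    · rintro q (⟨⟨z, hz, rfl⟩, h⟩ | hq)
      · by_cases z0 : φ z = p
        · exact .inr z0
        have b := sub z hz.1 hz.2
        have := S.abs_ne b (fun e => z0 (e ▸ S.zero)) h
        rw [abs_of_nonneg ((abs_nonneg _).trans hz.1)] at this
        exact .inl ⟨⟨⟨h, z0⟩, S.mφ b, by rw [S.right z b]; exact hz.1.lt_of_ne this⟩,
          by rw [S.right z b]; exact hz.2⟩
      · exact .inr hq
  der q hq t h := by
    obtain ⟨α, β, h1, -, h2, -⟩ := S.der q hq t h.2.1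
    exact ⟨α, (pos_iff_pos_of_mul_pos (h2 (h.2.2.trans_le (le_abs_self _)))).2
      ((abs_nonneg _).trans_lt h.2.2), h1⟩

theorem four (S : Sad f p γ U π φ r) {q : X} (hq : q ∈ lev f p) (hU : q ∈ U) :
    q ∈ arm f p U π ∨ q ∈ arm f p U (fun q => -π q) ∨ q ∈ arm f p U (fun q => (π q).swap) ∨
      q ∈ arm f p U fun q => -(π q).swap := by
  have := S.abs_ne (S.mπ hU) (fun e => hq.2 (by rw [← S.left q hU, e, S.zero]))
    (by rw [S.left q hU, hq.1])
  rcases this.lt_or_gt with k | k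
  · rcases lt_abs.1 k with k | k
    · exact .inl ⟨hq, hU, k⟩
    · exact .inr (.inl ⟨hq, hU, by simpa using k⟩)
  · rcases lt_abs.1 k with k | k
    · exact .inr (.inr (.inl ⟨hq, hU, k⟩))
    · exact .inr (.inr (.inr ⟨hq, hU, by simpa using k⟩))

theorem isOpen_pre (S : Sad f p γ U π φ r) {T : Set (ℝ × ℝ)} (hT : IsOpen T) :
    IsOpen (U ∩ π ⁻¹' T) := S.cπ.isOpen_inter_preimage S.opn hT

theorem tendsto_diag (S : Sad f p γ U π φ r) (σ : ℝ) :
    Tendsto (fun t : ℝ => φ (t, σ * t)) (𝓝[>] 0) (𝓝 p) := by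
  have : ContinuousAt (fun t : ℝ => φ (t, σ * t)) 0 :=
    (S.cφ.continuousAt (ball_mem_nhds 0 S.pos)).comp_of_eq (f := fun t : ℝ => (t, σ * t))
      (by fun_prop) (by simp)
  have h := this.tendsto.mono_left (nhdsWithin_le_nhds (s := Ioi 0))
  rwa [mul_zero, show ((0 : ℝ), (0 : ℝ)) = 0 from rfl, S.zero] at h

theorem not_min (S : Sad f p γ U π φ r) : ¬ IsLocalMin f p := fun h => by
  obtain ⟨t, h1, h2⟩ := (((S.tendsto_diag (-1)).eventually h).and (Ioo_mem_nhdsGT S.pos)).exists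
  rw [neg_one_mul] at h1
  exact h1.not_gt (S.down t h2.1.ne' (by rw [abs_of_pos h2.1]; exact h2.2))

theorem not_max (S : Sad f p γ U π φ r) : ¬ IsLocalMax f p := fun h => by
  obtain ⟨t, h1, h2⟩ := (((S.tendsto_diag 1).eventually h).and (Ioo_mem_nhdsGT S.pos)).exists
  rw [one_mul] at h1
  exact h1.not_gt (S.up t h2.1.ne' (by rw [abs_of_pos h2.1]; exact h2.2))

/-- separation of the thin lower band -/
theorem sep [T2Space X] (S : Sad f p γ U π φ r) (hf : Continuous f) {a₀ : ℝ} (a0 : 0 < a₀)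
    (hK : IsCompact {q | |f q - f p| ≤ a₀}) {O : Set X}
    (O1 : ∀ z ∈ O, O ∈ 𝓝[lev f p] z) (O2 : ∀ z ∈ lev f p \ O, Oᶜ ∈ 𝓝[lev f p] z)
    (hE : arm f p U π ⊆ O) (hW : Disjoint (arm f p U fun q => -π q) O)
    (hS : arm f p U (fun q => -(π q).swap) ⊆ O)
    (hN : Disjoint (arm f p U fun q => (π q).swap) O) : Cut f (f p) := by
  have r0 := S.pos
  let V := U ∩ π ⁻¹' ball 0 (r / 2)
  have Vo : IsOpen V := S.isOpen_pre isOpen_ball
  have pV : p ∈ V := ⟨S.mem_U, by simp [S.π_zero, r0]⟩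
  have clK : ∀ P : Set X, (∀ z ∈ lev f p \ P, Pᶜ ∈ 𝓝[lev f p] z) → IsClosed ((lev f p ∩ P) \ V) := by
    intro P hP
    refine isClosed_of_closure_subset fun z hz => ?_
    have z1 : z ∈ {q | f q = f p} \ V := closure_minimal (t := {q | f q = f p} \ V)
      (fun q hq => ⟨hq.1.1.1, hq.2⟩) ((isClosed_eq hf continuous_const).sdiff Vo) hz
    have z2 : z ∈ lev f p := ⟨z1.1, fun e => z1.2 (e ▸ pV)⟩
    refine ⟨⟨z2, by_contra fun k => ?_⟩, z1.2⟩
    obtain ⟨T, T1, T2⟩ := mem_nhdsWithin_iff_exists_mem_nhds_inter.1 (hP z ⟨z2, k⟩)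
    obtain ⟨y, y1, y2⟩ := mem_closure_iff_nhds.1 hz T T1
    exact T2 ⟨y1, y2.1.1⟩ y2.1.2
  obtain ⟨V₁, V₂, o1, o2, s1, s2, dj⟩ := SeparatedNhds.of_isCompact_isCompact
    (hK.of_isClosed_subset (clK O O2) fun z hz => by simp [hz.1.1.1, a0.le])
    (hK.of_isClosed_subset (clK Oᶜ fun z hz => by
      rw [compl_compl]; exact O1 z (not_not.1 hz.2)) fun z hz => by simp [hz.1.1.1, a0.le])
    (disjoint_left.2 fun z h1 h2 => h2.1.2 h1.1.2)
  have clB : ∀ T : Set (ℝ × ℝ), IsClosed T → IsClosed (φ '' (closedBall 0 (r / 2) ∩ T)) :=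
    fun T hT => (((isCompact_closedBall 0 (r / 2)).inter_right hT).image_of_continuousOn
      (S.cφ.mono fun z hz => closedBall_subset_ball (half_lt_self r0) hz.1)).isClosed
  let B₁ := φ '' (closedBall 0 (r / 2) ∩ {z : ℝ × ℝ | z.1 ≤ z.2})
  let B₂ := φ '' (closedBall 0 (r / 2) ∩ {z : ℝ × ℝ | z.2 ≤ z.1})
  have c1 : IsClosed B₁ := clB _ (isClosed_le continuous_fst continuous_snd)
  have c2 : IsClosed B₂ := clB _ (isClosed_le continuous_snd continuous_fst)
  have cov : ∀ z, f z = f p → z ∈ (V₁ \ B₁) ∪ (V₂ \ B₂) ∪ V := fun z hz => by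
    by_cases k : z ∈ V
    · exact .inr k
    have z2 : z ∈ lev f p := ⟨hz, fun e => k (e ▸ pV)⟩
    by_cases k' : z ∈ O
    · refine .inl (.inl ⟨s1 ⟨⟨z2, k'⟩, k⟩, ?_⟩)
      rintro ⟨w, hw, rfl⟩
      have b := closedBall_subset_ball (half_lt_self r0) hw.1
      have e := S.right w b
      have w1 : w.1 ≤ w.2 := hw.2
      rcases S.four z2 (S.mφ b) with a | a | a | a
      · have := a.2.2
        rw [e] at this
        linarith [le_abs_self w.2]
      · exact disjoint_left.1 hW a k'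
      · exact disjoint_left.1 hN a k'
      · have := a.2.2
        simp only [e, Prod.snd_neg, Prod.fst_neg, Prod.fst_swap, Prod.snd_swap] at this
        linarith [le_abs_self (-w.1)]
    · refine .inl (.inr ⟨s2 ⟨⟨z2, k'⟩, k⟩, ?_⟩)
      rintro ⟨w, hw, rfl⟩
      have b := closedBall_subset_ball (half_lt_self r0) hw.1
      have e := S.right w b
      have w1 : w.2 ≤ w.1 := hw.2
      rcases S.four z2 (S.mφ b) with a | a | a | a
      · exact k' (hE a)
      · have := a.2.2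
        simp only [e, Prod.snd_neg, Prod.fst_neg] at this
        linarith [le_abs_self (-w.2)]
      · have := a.2.2
        simp only [e, Prod.fst_swap, Prod.snd_swap] at this
        linarith [le_abs_self w.1]
      · exact k' (hS a)
  have Go : IsOpen ((V₁ \ B₁) ∪ (V₂ \ B₂) ∪ V) := ((o1.sdiff c1).union (o2.sdiff c2)).union Vo
  obtain ⟨ε₀, e0, e1⟩ : ∃ ε₀ > 0, ∀ z, |f z - f p| < ε₀ → z ∈ (V₁ \ B₁) ∪ (V₂ \ B₂) ∪ V := by
    obtain ⟨a, a1, ha⟩ := (hK.diff Go).exists_forall_le'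
      (f := fun z => |f z - f p|) (by fun_prop) (a := 0)
      fun z hz => abs_pos.2 (sub_ne_zero.2 fun e => hz.2 (cov z e))
    exact ⟨min a a₀, lt_min a1 a0, fun z hz => by_contra fun k =>
      (ha z ⟨(hz.trans_le (min_le_right _ _)).le, k⟩).not_gt (hz.trans_le (min_le_left _ _))⟩
  intro δ hδ
  set ε := min (δ / 2) ε₀ with hε
  have ε0 : 0 < ε := lt_min (half_pos hδ) e0
  have cd : ContinuousAt (fun t : ℝ => f (φ (t, -t))) 0 :=
    hf.continuousAt.comp ((S.cφ.continuousAt (ball_mem_nhds 0 r0)).comp_of_eq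
      (f := fun t : ℝ => (t, -t)) (by fun_prop) (by simp))
  obtain ⟨η', η0, hη⟩ := Metric.eventually_nhds_iff.1 (cd.eventually_const_lt
    (show f p - ε / 3 < f (φ (0, -0)) by
      rw [neg_zero, show ((0 : ℝ), (0 : ℝ)) = 0 from rfl, S.zero]; linarith))
  set η := min η' (r / 2) / 2 with hη'
  have η1 : 0 < η := half_pos (lt_min η0 (half_pos r0))
  have η2 : η < η' := (half_lt_self (lt_min η0 (half_pos r0))).trans_le (min_le_left _ _)
  have η3 : η < r / 2 := (half_lt_self (lt_min η0 (half_pos r0))).trans_le (min_le_right _ _)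
  have inb : ∀ t, |t| ≤ η → (t, -t) ∈ ball (0 : ℝ × ℝ) (r / 2) := fun t ht =>
    mem_sq.2 ⟨ht.trans_lt η3, by rw [abs_neg]; exact ht.trans_lt η3⟩
  have bb : ball (0 : ℝ × ℝ) (r / 2) ⊆ ball 0 r := ball_subset_ball (half_le_self r0.le)
  have ae : |η| ≤ η := (abs_of_pos η1).le
  have ae' : |-η| ≤ η := by rwa [abs_neg]
  refine ⟨ε, (min_le_left _ _).trans_lt (half_lt_self hδ),
    (V₁ \ B₁) ∪ U ∩ π ⁻¹' (ball 0 (r / 2) ∩ {z | z.2 < z.1}),
    (V₂ \ B₂) ∪ U ∩ π ⁻¹' (ball 0 (r / 2) ∩ {z | z.1 < z.2}),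
    (fun t => φ (t, -t)) '' Icc (-η) η, φ (η, -η), φ (-η, - -η), ε0,
    (o1.sdiff c1).union (S.isOpen_pre (isOpen_ball.inter (isOpen_lt continuous_snd continuous_fst))),
    (o2.sdiff c2).union (S.isOpen_pre (isOpen_ball.inter (isOpen_lt continuous_fst continuous_snd))),
    disjoint_left.2 ?_, fun z hz => ?_,
    isPreconnected_Icc.image _ (S.cφ.comp (by fun_prop) fun t ht => bb (inb t (abs_le.2 ht))), ?_,
    ⟨⟨η, ⟨by linarith, le_rfl⟩, rfl⟩, .inr ⟨S.mφ (bb (inb _ ae)), ?_⟩,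
      S.down η η1.ne' (by linarith)⟩,
    ⟨⟨-η, ⟨le_rfl, by linarith⟩, rfl⟩, .inr ⟨S.mφ (bb (inb _ ae')), ?_⟩,
      S.down (-η) (neg_ne_zero.2 η1.ne') (by linarith)⟩⟩
  · rintro z (h1 | h1) (h2 | h2)
    · exact disjoint_left.1 dj h1.1 h2.1
    · exact h1.2 ⟨π z, ⟨ball_subset_closedBall h2.2.1, le_of_lt (a := (π z).1) h2.2.2⟩, S.left z h2.1⟩
    · exact h2.2 ⟨π z, ⟨ball_subset_closedBall h1.2.1, le_of_lt (a := (π z).2) h1.2.2⟩, S.left z h1.1⟩
    · exact lt_asymm (a := (π z).1) h2.2.2 h1.2.2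
  · rcases e1 z (abs_lt.2 ⟨by linarith [hz.1, min_le_right (δ / 2) ε₀], by linarith [hz.2]⟩)
      with (k | k) | k
    · exact .inl (.inl k)
    · exact .inr (.inl k)
    rcases lt_trichotomy (π z).2 (π z).1 with l | l | l
    · exact .inl (.inr ⟨k.1, k.2, l⟩)
    · exfalso
      have e : z = φ ((π z).1, (π z).1) := by
        conv_lhs => rw [← S.left z k.1]
        exact congrArg φ (Prod.ext rfl l)
      by_cases z0 : (π z).1 = 0
      · rw [z0, show ((0 : ℝ), (0 : ℝ)) = 0 from rfl, S.zero] at e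
        exact hz.2.ne (congrArg f e)
      · exact (S.up _ z0 (mem_sq.1 (S.mπ k.1)).1).not_gt (e ▸ hz.2)
    · exact .inr (.inr ⟨k.1, k.2, l⟩)
  · rintro _ ⟨t, ht, rfl⟩
    have at' := abs_le.2 ht
    refine ⟨(hη (by simpa using at'.trans_lt η2)).le, ?_⟩
    by_cases t0 : t = 0
    · show f (φ (t, -t)) ≤ f p
      rw [t0, neg_zero, show ((0 : ℝ), (0 : ℝ)) = 0 from rfl, S.zero]
    · exact (S.down t t0 (by linarith)).le
  · rw [mem_preimage, S.right _ (bb (inb _ ae))]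
    exact ⟨inb _ ae, show -η < η by linarith⟩
  · rw [mem_preimage, S.right _ (bb (inb _ ae'))]
    exact ⟨inb _ ae', show -η < - -η by linarith⟩

/-- **A saddle cuts the band below or the band above.** -/
theorem cut [T2Space X] (S : Sad f p γ U π φ r) (hf : Continuous f) {a₀ : ℝ} (a0 : 0 < a₀)
    (hK : IsCompact {q | |f q - f p| ≤ a₀})
    (F : Flw (lev f p) γ) : Cut f (f p) ∨ Cut (fun q => -f q) (-f p) := by
  have hZ : IsCompact (lev f p ∪ {p}) := by
    convert hK.of_isClosed_subset (isClosed_eq hf (continuous_const (y := f p)))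
      (fun z hz => by simp [show f z = f p from hz, a0.le]) using 1
    ext q
    by_cases k : q = p <;> simp [lev, k]
  have dj : ∀ π : X → ℝ × ℝ, Disjoint (arm f p U π) (arm f p U fun q => -π q) := fun π =>
    disjoint_left.2 fun q h1 h2 => by
      have a := h1.2.2
      have b : |-(π q).2| < -(π q).1 := h2.2.2
      linarith [abs_nonneg (π q).2, abs_nonneg (-(π q).2)]
  obtain ⟨O, -, O1, O2, hE, hW, k⟩ := pairing F (fun h => h.2 rfl) S.pos hZ (S.isArm hf)
    (S.neg.isArm hf) (S.swap.isArm hf) (S.swap.neg.isArm hf) (dj _) (dj _) fun c hc =>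
      ⟨U ∩ π ⁻¹' ball 0 c, S.isOpen_pre isOpen_ball, ⟨S.mem_U, by simp [S.π_zero, hc]⟩,
        fun z hz => (S.four hz.1 hz.2.1).imp_left fun a =>
          ⟨a, (le_abs_self _).trans_lt (mem_sq.1 hz.2.2).1⟩⟩
  rcases k with ⟨hN, hS⟩ | ⟨hS, hN⟩
  · have e : lev (fun q => -f q) p = lev f p := by
      ext q
      simp [lev]
    refine .inr (S.flip.sep hf.neg a0 (by simpa only [neg_sub_neg, abs_sub_comm (f p)] using hK)
      (O := O) (e ▸ O1) (e ▸ O2) (fun q hq => hE ?_)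
      (hW.mono_left fun q hq => ?_) (fun q hq => hN ?_) (hS.mono_left fun q hq => ?_)) <;>
    exact ⟨e ▸ hq.1, hq.2.1, by simpa using hq.2.2⟩
  · exact .inl (S.sep hf a0 hK O1 O2 hE hW hS hN)

end Sad

end Vale.Agent.P218N.GB
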