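import Vale.Agent.P218N.GB.Geo

/-!
# P218N, block GB: charts of a compact surface, and the chart at a saddle
-/

open Filter Topology Set Metric

noncomputable section

namespace Vale.Agent.P218N.GB

variable {M : Set V3} {w f : V3 → ℝ}

/-- a graph chart of `M` around `p` over two linear coordinates -/
structure Chart (M : Set V3) (w : V3 → ℝ) (p : V3) (a b : V3 →L[ℝ] ℝ) (O : Set V3)
    (ψ : ℝ × ℝ → V3) (r : ℝ) : Prop where
  pos : 0 < r
  opn : IsOpen O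
  zero : ψ 0 = p
  mem : ∀ u ∈ ball (0 : ℝ × ℝ) r, ψ u ∈ M ∧ ψ u ∈ O
  right : ∀ u ∈ ball (0 : ℝ × ℝ) r, (a (ψ u - p), b (ψ u - p)) = u
  left : ∀ x ∈ M, x ∈ O → (a (x - p), b (x - p)) ∈ ball (0 : ℝ × ℝ) r ∧ ψ (a (x - p), b (x - p)) = x
  sm : ContDiffOn ℝ 2 ψ (ball 0 r)
  da : ∀ u ∈ ball (0 : ℝ × ℝ) r, ∀ v, a (fderiv ℝ ψ u v) = v.1
  db : ∀ u ∈ ball (0 : ℝ × ℝ) r, ∀ v, b (fderiv ℝ ψ u v) = v.2
  dw : ∀ u ∈ ball (0 : ℝ × ℝ) r, ∀ v, fderiv ℝ w (ψ u) (fderiv ℝ ψ u v) = 0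

theorem Chart.diff {p : V3} {a b : V3 →L[ℝ] ℝ} {O : Set V3} {ψ : ℝ × ℝ → V3} {r : ℝ}
    (C : Chart M w p a b O ψ r) {u : ℝ × ℝ} (hu : u ∈ ball (0 : ℝ × ℝ) r) :
    HasFDerivAt ψ (fderiv ℝ ψ u) u :=
  ((C.sm.contDiffAt (isOpen_ball.mem_nhds hu)).differentiableAt (by norm_num)).hasFDerivAt

theorem Chart.mono {p : V3} {a b : V3 →L[ℝ] ℝ} {O : Set V3} {ψ : ℝ × ℝ → V3} {r s : ℝ}
    (C : Chart M w p a b O ψ r) (hs : 0 < s) (h : s ≤ r) :
    Chart M w p a b (O ∩ {x | (a (x - p), b (x - p)) ∈ ball (0 : ℝ × ℝ) s}) ψ s where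
  pos := hs
  opn := C.opn.inter (isOpen_ball.preimage (by fun_prop))
  zero := C.zero
  mem u hu := ⟨(C.mem u (ball_subset_ball h hu)).1, (C.mem u (ball_subset_ball h hu)).2, by
    rw [mem_ofPred_eq, C.right u (ball_subset_ball h hu)]; exact hu⟩
  right u hu := C.right u (ball_subset_ball h hu)
  left x hx hO := ⟨hO.2, (C.left x hx hO.1).2⟩
  sm := C.sm.mono (ball_subset_ball h)
  da u hu := C.da u (ball_subset_ball h hu)
  db u hu := C.db u (ball_subset_ball h hu)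
  dw u hu := C.dw u (ball_subset_ball h hu)

theorem CS.exists_chart (H : CS M w) {p : V3} (hp : p ∈ M) {a b : V3 →L[ℝ] ℝ}
    (h : a (cr b (fderiv ℝ w p)) ≠ 0) : ∃ O ψ r, Chart M w p a b O ψ r := by
  obtain ⟨L, hL⟩ := exists_equiv h
  let Θ : V3 → (ℝ × ℝ) × ℝ := fun x => ((a (x - p), b (x - p)), w x)
  have c : ContDiff ℝ 2 Θ := (ContDiff.prodMk (by fun_prop) (by fun_prop)).prodMk H.sm
  have d : ∀ x, HasFDerivAt Θ ((a.prod b).prod (fderiv ℝ w x)) x := fun x =>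
    (((a.hasFDerivAt.comp x ((hasFDerivAt_id x).sub_const p)).prodMk
      (b.hasFDerivAt.comp x ((hasFDerivAt_id x).sub_const p))).prodMk
        (H.sm.differentiable (by norm_num) x).hasFDerivAt).congr_fderiv (by simp)
  have d' : HasFDerivAt Θ (L : V3 →L[ℝ] (ℝ × ℝ) × ℝ) p := hL ▸ d p
  let e := c.contDiffAt.toOpenPartialHomeomorph Θ d' (by norm_num)
  have ec : (e : V3 → _) = Θ := rfl
  have ps : p ∈ e.source := c.contDiffAt.mem_toOpenPartialHomeomorph_source d' (by norm_num)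
  have e0 : Θ p = (0, 0) := by simp [Θ, H.zero hp]
  have ci : ContDiffAt ℝ 2 e.symm (0, 0) := e0 ▸ c.contDiffAt.to_localInverse d' (by norm_num)
  have s0 : e.symm (0, 0) = p := e0 ▸ e.left_inv ps
  have i0 : ContDiffAt ℝ 2 (fun u : ℝ × ℝ => e.symm (u, 0)) 0 :=
    ContDiffAt.comp (g := e.symm) (f := fun u : ℝ × ℝ => (u, (0 : ℝ))) 0 ci
      (contDiffAt_id.prodMk contDiffAt_const)
  have t0 : Tendsto (fun u : ℝ × ℝ => e.symm (u, 0)) (𝓝 0) (𝓝 p) := s0 ▸ i0.continuousAt.tendsto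
  have t1 : ∀ᶠ u : ℝ × ℝ in 𝓝 0, (u, (0 : ℝ)) ∈ e.target :=
    (Continuous.prodMk_left (0 : ℝ)).continuousAt.eventually
      (e.open_target.mem_nhds (show ((0 : ℝ × ℝ), (0 : ℝ)) ∈ e.target from e0 ▸ e.map_source ps))
  obtain ⟨r, r0, hr⟩ := Metric.eventually_nhds_iff_ball.1
    (t1.and ((i0.eventually (by simp)).and (t0.eventually (H.loc p hp))))
  have k1 : ∀ u ∈ ball (0 : ℝ × ℝ) r, Θ (e.symm (u, 0)) = (u, 0) := fun u hu => e.right_inv (hr u hu).1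
  have k2 : ∀ u ∈ ball (0 : ℝ × ℝ) r, ∀ v, ((a.prod b).prod (fderiv ℝ w (e.symm (u, 0))))
      (fderiv ℝ (fun u : ℝ × ℝ => e.symm (u, 0)) u v) = (v, 0) := fun u hu v => by
    have x1 := (d _).comp u ((hr u hu).2.1.differentiableAt (by norm_num)).hasFDerivAt
    have x2 : HasFDerivAt (Θ ∘ fun u : ℝ × ℝ => e.symm (u, 0))
        (ContinuousLinearMap.inl ℝ (ℝ × ℝ) ℝ) u :=
      (hasFDerivAt_prodMk_left u (0 : ℝ)).congr_of_eventuallyEq
        (mem_of_superset (isOpen_ball.mem_nhds hu) k1)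
    exact DFunLike.congr_fun (x1.unique x2) v
  refine ⟨e.source ∩ {x | (a (x - p), b (x - p)) ∈ ball (0 : ℝ × ℝ) r}, fun u => e.symm (u, 0), r,
    r0, e.open_source.inter (isOpen_ball.preimage (by fun_prop)), s0, fun u hu =>
      ⟨(hr u hu).2.2.2 (congrArg Prod.snd (k1 u hu)), e.map_target (hr u hu).1, ?_⟩,
    fun u hu => congrArg Prod.fst (k1 u hu), fun x hx hO => ⟨hO.2, ?_⟩,
    fun u hu => (hr u hu).2.1.contDiffWithinAt, fun u hu v => congrArg (·.1.1) (k2 u hu v),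
    fun u hu v => congrArg (·.1.2) (k2 u hu v), fun u hu v => congrArg (·.2) (k2 u hu v)⟩
  · rw [mem_ofPred_eq, show (a (e.symm (u, 0) - p), b (e.symm (u, 0) - p)) = u from
      congrArg Prod.fst (k1 u hu)]
    exact hu
  · have := e.left_inv hO.1
    rwa [ec, show Θ x = ((a (x - p), b (x - p)), 0) by simp [Θ, H.zero hx]] at this

theorem lt_of_deriv {g g' : ℝ → ℝ} {s t : ℝ} (hst : s < t)
    (h : ∀ x ∈ Icc s t, HasDerivAt g (g' x) x) (h0 : ∀ x ∈ Ioo s t, 0 < g' x) : g s < g t :=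
  strictMonoOn_of_deriv_pos (convex_Icc s t) (fun x hx => (h x hx).continuousAt.continuousWithinAt)
    (fun x hx => by
      rw [(h x (interior_subset hx)).deriv]; exact h0 x (by simpa using hx))
    (left_mem_Icc.2 hst.le) (right_mem_Icc.2 hst.le) hst

/-- a function of two variables whose gradient is close to the gradient of `x y` -/
structure Hyp (g : ℝ × ℝ → ℝ) (G : ℝ × ℝ → ℝ × ℝ →L[ℝ] ℝ) (r : ℝ) : Prop where
  d : ∀ u ∈ ball (0 : ℝ × ℝ) r, HasFDerivAt g (G u) u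
  b1 : ∀ u ∈ ball (0 : ℝ × ℝ) r, |G u (1, 0) - u.2| ≤ max |u.1| |u.2| / 4
  b2 : ∀ u ∈ ball (0 : ℝ × ℝ) r, |G u (0, 1) - u.1| ≤ max |u.1| |u.2| / 4

namespace Hyp

variable {g : ℝ × ℝ → ℝ} {G : ℝ × ℝ → ℝ × ℝ →L[ℝ] ℝ} {r : ℝ}

theorem s1 (H : Hyp g G r) {u : ℝ × ℝ} (hu : u ∈ ball (0 : ℝ × ℝ) r) (h : |u.1| ≤ |u.2|)
    (h0 : u.2 ≠ 0) : 0 < G u (1, 0) * u.2 := by
  have := abs_le.1 (H.b1 u hu)
  rw [max_eq_right h] at this
  rcases h0.lt_or_gt with k | k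
  · rw [abs_of_neg k] at this
    exact mul_pos_of_neg_of_neg (by linarith) k
  · rw [abs_of_pos k] at this
    exact mul_pos (by linarith) k

theorem s2 (H : Hyp g G r) {u : ℝ × ℝ} (hu : u ∈ ball (0 : ℝ × ℝ) r) (h : |u.2| ≤ |u.1|)
    (h0 : u.1 ≠ 0) : 0 < G u (0, 1) * u.1 := by
  have := abs_le.1 (H.b2 u hu)
  rw [max_eq_left h] at this
  rcases h0.lt_or_gt with k | k
  · rw [abs_of_neg k] at this
    exact mul_pos_of_neg_of_neg (by linarith) k
  · rw [abs_of_pos k] at this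
    exact mul_pos (by linarith) k

theorem app (L : ℝ × ℝ →L[ℝ] ℝ) (x y : ℝ) : L (x, y) = x * L (1, 0) + y * L (0, 1) := by
  rw [show (x, y) = x • ((1 : ℝ), (0 : ℝ)) + y • ((0 : ℝ), (1 : ℝ)) by simp, map_add, map_smul,
    map_smul, smul_eq_mul, smul_eq_mul]

theorem diag (H : Hyp g G r) {σ t : ℝ} (hσ : σ = 1 ∨ σ = -1) (h0 : t ≠ 0) (h : |t| < r) :
    σ * g 0 < σ * g (t, σ * t) := by
  have a : ∀ s : ℝ, |σ * s| = |s| := fun s => by rcases hσ with rfl | rfl <;> simp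
  have m : ∀ s ∈ Icc (0 : ℝ) 1, (s * t, σ * (s * t)) ∈ ball (0 : ℝ × ℝ) r := fun s hs => by
    have : |s * t| < r := by
      rw [abs_mul, abs_of_nonneg hs.1]
      exact (mul_le_of_le_one_left (abs_nonneg t) hs.2).trans_lt h
    exact mem_sq.2 ⟨this, by rwa [a]⟩
  have := lt_of_deriv (g := fun s => σ * g (s * t, σ * (s * t)))
    (g' := fun s => σ * G (s * t, σ * (s * t)) (t, σ * t)) one_pos (fun s hs =>
      ((H.d _ (m s hs)).comp_hasDerivAt s ((((hasDerivAt_id' s).mul_const t).prodMk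
        (((hasDerivAt_id' s).mul_const t).const_mul σ)).congr_deriv (by simp))).const_mul σ)
    fun s hs => by
      have k := mul_ne_zero hs.1.ne' h0
      have k1 := H.s1 (m s (Ioo_subset_Icc_self hs)) (a _).ge (by
        rcases hσ with rfl | rfl <;> simpa using k)
      have k2 := H.s2 (m s (Ioo_subset_Icc_self hs)) (a _).le k
      refine (pos_iff_pos_of_mul_pos (b := s) ?_).2 hs.1
      rw [app]
      rcases hσ with rfl | rfl <;> nlinarith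
  simp only [zero_mul, mul_zero, one_mul] at this
  exact this

theorem inj1 (H : Hyp g G r) {x : ℝ} (h0 : x ≠ 0) (h : |x| < r) :
    InjOn (fun y => g (x, y)) {y | |y| ≤ |x|} := by
  have key : ∀ s t, |s| ≤ |x| → |t| ≤ |x| → s < t → g (x, s) ≠ g (x, t) := fun s t hs ht hst e => by
    have m : ∀ y ∈ Icc s t, |y| ≤ |x| := fun y hy =>
      abs_le.2 ⟨(abs_le.1 hs).1.trans hy.1, hy.2.trans (abs_le.1 ht).2⟩
    have := lt_of_deriv (g := fun y => g (x, y) * x) (g' := fun y => G (x, y) (0, 1) * x) hst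
      (fun y hy => ((H.d _ (mem_sq.2 ⟨h, (m y hy).trans_lt h⟩)).comp_hasDerivAt y
        ((hasDerivAt_const y x).prodMk (hasDerivAt_id' y))).mul_const x) fun y hy =>
      H.s2 (mem_sq.2 ⟨h, (m y (Ioo_subset_Icc_self hy)).trans_lt h⟩) (m y (Ioo_subset_Icc_self hy)) h0
    exact this.ne (by rw [e])
  exact fun s hs t ht e => (lt_trichotomy s t).elim (fun k => (key s t hs ht k e).elim)
    fun k => k.elim id fun k => (key t s ht hs k e.symm).elim

theorem inj2 (H : Hyp g G r) {y : ℝ} (h0 : y ≠ 0) (h : |y| < r) :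
    InjOn (fun x => g (x, y)) {x | |x| ≤ |y|} := by
  have key : ∀ s t, |s| ≤ |y| → |t| ≤ |y| → s < t → g (s, y) ≠ g (t, y) := fun s t hs ht hst e => by
    have m : ∀ x ∈ Icc s t, |x| ≤ |y| := fun x hx =>
      abs_le.2 ⟨(abs_le.1 hs).1.trans hx.1, hx.2.trans (abs_le.1 ht).2⟩
    have := lt_of_deriv (g := fun x => g (x, y) * y) (g' := fun x => G (x, y) (1, 0) * y) hst
      (fun x hx => ((H.d _ (mem_sq.2 ⟨(m x hx).trans_lt h, h⟩)).comp_hasDerivAt x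
        ((hasDerivAt_id' x).prodMk (hasDerivAt_const x y))).mul_const y) fun x hx =>
      H.s1 (mem_sq.2 ⟨(m x (Ioo_subset_Icc_self hx)).trans_lt h, h⟩) (m x (Ioo_subset_Icc_self hx)) h0
    exact this.ne (by rw [e])
  exact fun s hs t ht e => (lt_trichotomy s t).elim (fun k => (key s t hs ht k e).elim)
    fun k => k.elim id fun k => (key t s ht hs k e.symm).elim

end Hyp

/-- the second derivative of `F ∘ ψ` at a critical point of `F` -/
theorem hess_comp {E : Type*} [NormedAddCommGroup E] [NormedSpace ℝ E] {F : V3 → ℝ} {ψ : E → V3}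
    {u : E} (hF : ContDiff ℝ 2 F) (hψ : ContDiffAt ℝ 2 ψ u) (h0 : fderiv ℝ F (ψ u) = 0) :
    ∃ B : E →L[ℝ] E →L[ℝ] ℝ, HasFDerivAt (fun v => (fderiv ℝ F (ψ v)).comp (fderiv ℝ ψ v)) B u ∧
      ∀ x y, B x y = fderiv ℝ (fderiv ℝ F) (ψ u) (fderiv ℝ ψ u x) (fderiv ℝ ψ u y) := by
  have d1 : HasFDerivAt (fun v => fderiv ℝ F (ψ v))
      ((fderiv ℝ (fderiv ℝ F) (ψ u)).comp (fderiv ℝ ψ u)) u :=
    ((hF.fderiv_right (m := 1) (by norm_num)).differentiable one_ne_zero _).hasFDerivAt.comp u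
      (hψ.differentiableAt (by norm_num)).hasFDerivAt
  have d2 := ((hψ.fderiv_right (m := 1) (by norm_num)).differentiableAt one_ne_zero).hasFDerivAt
  exact ⟨_, d1.clm_comp d2, fun x y => by simp [h0]⟩

theorem null_pair {B : V3 →L[ℝ] V3 →L[ℝ] ℝ} (hs : ∀ x y, B x y = B y x) {n : V3 →L[ℝ] ℝ}
    {e₁ e₂ : V3} (n1 : n e₁ = 0) (n2 : n e₂ = 0) (h1 : B e₁ e₁ < 0) (h2 : 0 < B e₂ e₂) :
    ∃ v₁ v₂, n v₁ = 0 ∧ n v₂ = 0 ∧ B v₁ v₁ = 0 ∧ B v₂ v₂ = 0 ∧ B v₁ v₂ = 1 := by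
  set a := B e₁ e₁
  set b := B e₁ e₂ with hb
  set c := B e₂ e₂
  have D : 0 < b ^ 2 - a * c := by nlinarith [sq_nonneg b, mul_pos (neg_pos.2 h1) h2]
  have s := Real.sq_sqrt D.le
  set d := √(b ^ 2 - a * c)
  have ex : ∀ s t : ℝ, B (c • e₁ + s • e₂) (c • e₁ + t • e₂) = c * (c * a + (s + t) * b + s * t) := by
    intro s t
    simp only [map_add, map_smul, add_apply, smul_apply,
      smul_eq_mul, hs e₂ e₁, ← hb]
    ring
  have k : c * (c * a + ((-b + d) + (-b - d)) * b + (-b + d) * (-b - d)) ≠ 0 :=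
    mul_ne_zero h2.ne' (by nlinarith)
  refine ⟨c • e₁ + (-b + d) • e₂, (c * (c * a + ((-b + d) + (-b - d)) * b +
    (-b + d) * (-b - d)))⁻¹ • (c • e₁ + (-b - d) • e₂), by simp [n1, n2], by simp [n1, n2], ?_, ?_, ?_⟩
  · rw [ex]
    exact mul_eq_zero_of_right _ (by nlinarith)
  · rw [map_smul, map_smul, smul_apply, ex]
    rw [mul_eq_zero_of_right c (show c * a + (-b - d + (-b - d)) * b + (-b - d) * (-b - d) = 0 by
      nlinarith), smul_zero, smul_zero]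
  · rw [map_smul, ex, smul_eq_mul, inv_mul_cancel₀ k]

/-- `p` is a nondegenerate saddle of the restriction of `f` to `{w = 0}` -/
def IsSaddle (w f : V3 → ℝ) (p : V3) : Prop :=
  ∃ l : ℝ, fderiv ℝ f p = l • fderiv ℝ w p ∧ ∃ e₁ e₂, fderiv ℝ w p e₁ = 0 ∧ fderiv ℝ w p e₂ = 0 ∧
    fderiv ℝ (fderiv ℝ fun x => f x - l * w x) p e₁ e₁ < 0 ∧
    0 < fderiv ℝ (fderiv ℝ fun x => f x - l * w x) p e₂ e₂

theorem CS.exists_sad (H : CS M w) (hf : ContDiff ℝ 2 f) {p : M} (hp : IsSaddle w f p)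
    {γ : M → ℝ → M} (g4 : ∀ q : M, f q = f p →
      ∀ t, HasDerivAt (fun u => (γ q u : V3)) (fld w f (γ q t)) t) :
    ∃ U π φ r, Sad (fun q : M => f q) p γ U π φ r := by
  classical
  obtain ⟨l, hl, e₁, e₂, n1, n2, h1, h2⟩ := hp
  set F : V3 → ℝ := fun x => f x - l * w x with hF
  have cF : ContDiff ℝ 2 F := hf.sub (contDiff_const.mul H.sm)
  have dF : ∀ x, fderiv ℝ F x = fderiv ℝ f x - l • fderiv ℝ w x := fun x =>
    ((hf.differentiable (by norm_num) x).hasFDerivAt.fun_sub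
      ((H.sm.differentiable (by norm_num) x).hasFDerivAt.const_mul l)).fderiv
  set B := fderiv ℝ (fderiv ℝ F) p with hB
  have sym : ∀ x y, B x y = B y x := cF.contDiffAt.isSymmSndFDerivAt (by simp)
  obtain ⟨v₁, v₂, m1, m2, b1, b2, b3, neg⟩ : ∃ v₁ v₂, fderiv ℝ w p v₁ = 0 ∧ fderiv ℝ w p v₂ = 0 ∧
      B v₁ v₁ = 0 ∧ B v₂ v₂ = 0 ∧ B v₁ v₂ = 1 ∧ B v₂ (cr (B v₁) (fderiv ℝ w p)) < 0 := by
    obtain ⟨v₁, v₂, m1, m2, b1, b2, b3⟩ := null_pair sym n1 n2 h1 h2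
    rcases (tri_ne_zero (a := B v₂) (b := B v₁) (H.reg p p.2) (sym _ _ ▸ b3) b3 m1 m2 b1).lt_or_gt
      with k | k
    · exact ⟨v₁, v₂, m1, m2, b1, b2, b3, k⟩
    · exact ⟨v₂, v₁, m2, m1, b2, b1, sym _ _ ▸ b3, by rw [cr_swap]; linarith⟩
  obtain ⟨O', ψ, r', C'⟩ := H.exists_chart p.2 neg.ne
  have z' : (0 : ℝ × ℝ) ∈ ball (0 : ℝ × ℝ) r' := mem_ball_self C'.pos
  have cψ := C'.sm.contDiffAt (isOpen_ball.mem_nhds z')
  obtain ⟨Q, q1, q2⟩ := hess_comp cF cψ (by rw [C'.zero, dF, hl, sub_self])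
  have L : ∀ x : ℝ × ℝ, fderiv ℝ ψ 0 x = x.1 • v₁ + x.2 • v₂ := fun x =>
    sub_eq_zero.1 (eq_zero_of_tri neg.ne (by simp [C'.da 0 z', b2, sym v₂ v₁, b3])
      (by simp [C'.db 0 z', b1, b3]) (by
        have := C'.dw 0 z' x
        rw [C'.zero] at this
        simp [this, m1, m2]))
  have q3 : ∀ x y : ℝ × ℝ, Q x y = x.1 * y.2 + x.2 * y.1 := fun x y => by
    rw [q2, C'.zero, ← hB, L, L]
    simp [b1, b2, b3, sym v₂ v₁]
  have est := q1.isLittleO.def (c := 1 / 4) (by norm_num)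
  have cn : Continuous fun x => B v₂ (cr (B v₁) (fderiv ℝ w x)) := (B v₂).continuous.comp
    (contDiff_cr (n := 0) contDiff_const (H.sm.fderiv_right (by norm_num))).continuous
  obtain ⟨r, r0, hr⟩ := Metric.eventually_nhds_iff_ball.1 (est.and
    (((C'.zero ▸ cψ.continuousAt.tendsto : Tendsto ψ (𝓝 0) (𝓝 p)).eventually
      (cn.continuousAt.eventually_lt_const neg)).and (ball_mem_nhds 0 C'.pos)))
  have rr : min r r' ≤ r' := min_le_right _ _
  have C := C'.mono (lt_min r0 C'.pos) rr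
  replace hr := fun u (hu : u ∈ ball (0 : ℝ × ℝ) (min r r')) =>
    hr u (ball_subset_ball (min_le_left _ _) hu)
  generalize min r r' = s at C hr
  generalize (O' ∩ _) = O at C
  have Fψ : ∀ u ∈ ball (0 : ℝ × ℝ) s, f (ψ u) = F (ψ u) := fun u hu => by
    simp [hF, H.zero (C.mem u hu).1]
  have est' : ∀ u ∈ ball (0 : ℝ × ℝ) s, ∀ v : ℝ × ℝ, ‖v‖ = 1 →
      |(fderiv ℝ F (ψ u)).comp (fderiv ℝ ψ u) v - (u.1 * v.2 + u.2 * v.1)| ≤ max |u.1| |u.2| / 4 := by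
    intro u hu v hv
    have k := (ContinuousLinearMap.le_opNorm _ v).trans (mul_le_mul_of_nonneg_right (hr u hu).1
      (norm_nonneg v))
    rw [C.zero, dF p, hl, sub_self, ContinuousLinearMap.zero_comp, sub_zero, sub_zero, hv,
      sub_apply, q3, Prod.norm_def] at k
    simp only [Real.norm_eq_abs] at k
    linarith
  have hy : Hyp (fun u => F (ψ u)) (fun u => (fderiv ℝ F (ψ u)).comp (fderiv ℝ ψ u)) s :=
    ⟨fun u hu => (cF.differentiable (by norm_num) _).hasFDerivAt.comp u (C.diff hu),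
      fun u hu => by simpa using est' u hu (1, 0) (by simp [Prod.norm_def]),
      fun u hu => by simpa using est' u hu (0, 1) (by simp [Prod.norm_def])⟩
  let φ : ℝ × ℝ → M := fun u => if h : ψ u ∈ M then ⟨ψ u, h⟩ else p
  have eφ : ∀ u ∈ ball (0 : ℝ × ℝ) s, (φ u : V3) = ψ u := fun u hu => by
    simp only [φ, dif_pos (C.mem u hu).1]
  have fφ : ∀ u ∈ ball (0 : ℝ × ℝ) s, f (φ u) = F (ψ u) := fun u hu => by rw [eφ u hu, Fψ u hu]
  have z : (0 : ℝ × ℝ) ∈ ball (0 : ℝ × ℝ) s := mem_ball_self C.pos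
  have fp : f p = F (ψ 0) := by rw [← Fψ 0 z, C.zero]
  refine ⟨{q : M | (q : V3) ∈ O}, fun q => (B v₂ (q - p), B v₁ (q - p)), φ, s,
    ⟨C.pos, C.opn.preimage continuous_subtype_val, Continuous.continuousOn (by fun_prop),
      IsInducing.subtypeVal.continuousOn_iff.2 (C.sm.continuousOn.congr eφ),
      fun q hq => (C.left q q.2 hq).1, fun u hu => by
        rw [mem_ofPred_eq, eφ u hu]; exact (C.mem u hu).2,
      fun q hq => Subtype.ext (by rw [eφ _ (C.left q q.2 hq).1, (C.left q q.2 hq).2]),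
      fun u hu => by rw [eφ u hu, C.right u hu], Subtype.ext (by rw [eφ 0 z, C.zero]),
      fun t h1 h2 => ?_, fun t h1 h2 => ?_, fun x h1 h2 y hy' y' hy'' e => ?_,
      fun y h1 h2 x hx x' hx' e => ?_, fun q hq t h => ?_⟩⟩
  · rw [fφ _ (mem_sq.2 ⟨h2, h2⟩), fp]
    simpa using hy.diag (.inl rfl) h1 h2
  · rw [fφ _ (mem_sq.2 ⟨h2, by rwa [abs_neg]⟩), fp]
    simpa using hy.diag (.inr rfl) h1 h2
  · refine hy.inj1 h1 h2 hy' hy'' ?_
    simp only [fφ _ (mem_sq.2 ⟨h2, lt_of_le_of_lt hy' h2⟩),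
      fφ _ (mem_sq.2 ⟨h2, lt_of_le_of_lt hy'' h2⟩)] at e
    exact e
  · refine hy.inj2 h1 h2 hx hx' ?_
    simp only [fφ _ (mem_sq.2 ⟨lt_of_le_of_lt hx h2, h2⟩),
      fφ _ (mem_sq.2 ⟨lt_of_le_of_lt hx' h2, h2⟩)] at e
    exact e
  · obtain ⟨k1, k2⟩ := C.left _ (γ q t).2 h
    refine ⟨_, _, (B v₂).hasFDerivAt.comp_hasDerivAt t ((g4 q hq.1 t).sub_const _),
      (B v₁).hasFDerivAt.comp_hasDerivAt t ((g4 q hq.1 t).sub_const _), ?_⟩
    generalize (B v₂ (γ q t - p), B v₁ (γ q t - p)) = u at k1 k2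
    rw [← k2]
    have D := (hr u k1).2.1
    have cm := fun v => cramer (B v₂) (B v₁) (fderiv ℝ w (ψ u)) (fderiv ℝ f (ψ u)) (fderiv ℝ ψ u v)
    have ee : ∀ v, fderiv ℝ f (ψ u) (fderiv ℝ ψ u v) =
        (fderiv ℝ F (ψ u)).comp (fderiv ℝ ψ u) v := fun v => by
      simp [dF, C.dw u k1]
    simp only [C.da u k1, C.db u k1, C.dw u k1, ee] at cm
    have c1 := cm (1, 0)
    have c2 := cm (0, 1)
    simp only [one_mul, zero_mul, sub_zero, add_zero, zero_sub] at c1 c2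
    refine ⟨fun k => ?_, fun k => ?_⟩
    · have := hy.s2 k1 k.le (abs_pos.1 ((abs_nonneg _).trans_lt k))
      rw [show B v₂ (fld w f (ψ u)) = _ from neg_eq_iff_eq_neg.1 c2.symm]
      nlinarith [mul_pos (neg_pos.2 D) this]
    · have := hy.s1 k1 k.le (abs_pos.1 ((abs_nonneg _).trans_lt k))
      rw [show B v₁ (fld w f (ψ u)) = _ from c1.symm]
      nlinarith [mul_pos (neg_pos.2 D) this]

theorem IsSaddle.fld {p : V3} (hp : IsSaddle w f p) : fld w f p = 0 := by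
  obtain ⟨l, hl, -⟩ := hp
  rw [GB.fld, hl, cr_smul_self]

theorem isCompact_level (hf : Continuous f) {p : V3} {a : ℝ} (ha : 0 < a)
    (hK : IsCompact {q ∈ M | |f q - f p| ≤ a}) : IsCompact {x ∈ M | f x = f p} := by
  convert hK.inter_right (isClosed_eq hf (continuous_const (y := f p))) using 1
  exact Set.ext fun x => ⟨fun h => ⟨⟨h.1, by simp [h.2, ha.le]⟩, h.2⟩, fun h => ⟨h.1.1, h.2⟩⟩

/-- **A saddle which is alone on its level cuts the band below or the band above.** -/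
theorem CS.saddle_cut (H : CS M w) (hf : ContDiff ℝ 2 f) {p : M} (hp : IsSaddle w f p) {a : ℝ}
    (ha : 0 < a) (hK : IsCompact {q ∈ M | |f q - f p| ≤ a})
    (reg : ∀ q ∈ M, f q = f p → q ≠ p → fld w f q ≠ 0) :
    Cut (fun q : M => f q) (f p) ∨ Cut (fun q : M => -f q) (-f p) := by
  obtain ⟨γ, hγ⟩ := H.exists_flow hf (isCompact_level hf.continuous ha hK)
  obtain ⟨U, π, φ, r, S⟩ := H.exists_sad hf hp fun q hq => (hγ q hq).2.2.2.2
  exact S.cut (hf.continuous.comp continuous_subtype_val) ha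
    (IsInducing.subtypeVal.isCompact_preimage' hK (by simp) |>.of_isClosed_subset
      (isClosed_le (by have := hf.continuous; fun_prop) continuous_const) fun q hq => ⟨q.2, hq⟩)
    (H.flw hf hγ hp.fld fun q hq => reg q q.2 hq.1 fun e => hq.2 (Subtype.ext e))

/-- a saddle is not a local extremum -/
theorem CS.saddle_not_extr (H : CS M w) (hf : ContDiff ℝ 2 f) {p : M} (hp : IsSaddle w f p)
    (hK : IsCompact {x ∈ M | f x = f p}) :
    ¬ IsLocalMin (fun q : M => f q) p ∧ ¬ IsLocalMax (fun q : M => f q) p := by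
  obtain ⟨γ, hγ⟩ := H.exists_flow hf hK
  obtain ⟨U, π, φ, r, S⟩ := H.exists_sad hf hp fun q hq => (hγ q hq).2.2.2.2
  exact ⟨S.not_min, S.not_max⟩

end Vale.Agent.P218N.GB
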